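import Vale.Agent.P237.Full.Equal

/-!
# P237: affine invariance, compactness, and the minimiser
-/

namespace Vale.Agent.P237.Full

open MeasureTheory Set Function Topology Filter
open scoped ENNReal NNReal Pointwise

variable {m k : ℕ} {K L : Set (Pt (m + 1))}

theorem gain_mono (hK : Cvx K) (hL : Cvx L) (h : K ⊆ L) (u : Pt (m + 1)) :
    gain K u ≤ gain L u := by
  rcases eq_or_ne u 0 with rfl | hu
  · simp [gain_zero]
  rw [← area_eq_gain hK, ← area_eq_gain hL]
  exact P227.Zono.area_mono hu hK.compact hK.convex hL.compact hL.convex h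

theorem Cvx.dilate (hK : Cvx K) {r : ℝ} (hr : 0 < r) : Cvx (r • K) :=
  ⟨hK.compact.smul r, hK.convex.smul r, by
    simpa using (smul_mem_nhds_smul_iff₀ (x := (0 : Pt (m + 1))) hr.ne').2 hK.nhds⟩

theorem gain_dilate (hK : Cvx K) {r : ℝ} (hr : 0 < r) (u : Pt (m + 1)) :
    gain (r • K) u = r ^ m * gain K u := by
  rw [← area_eq_gain hK, ← area_eq_gain (hK.dilate hr)]
  exact P227.Zono.area_dilate hK.compact hK.convex hr.le

theorem ratio_nonneg (K : Set (Pt (m + 1))) : 0 ≤ ratio K :=
  div_nonneg ENNReal.toReal_nonneg (pow_nonneg ENNReal.toReal_nonneg _)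

/-- Sandwiched bodies have close ratios. -/
theorem ratio_le_of_subset (hK : Cvx K) (hL : Cvx L) {r : ℝ} (hr : 0 < r) (h1 : K ⊆ r • L)
    (h2 : L ⊆ r • K) : ratio L ≤ r ^ (2 * (m * (m + 1))) * ratio K := by
  have hG := hK.cvx_gainBody
  have hsub : gainBody L ⊆ (r ^ m) • gainBody K := by
    intro y hy
    rw [mem_smul_set_iff_inv_smul_mem₀ (pow_ne_zero _ hr.ne')]
    intro u
    rw [smul_dotProduct, smul_eq_mul, inv_mul_le_iff₀ (pow_pos hr _), ← gain_dilate hK hr]
    exact (hy u).trans (gain_mono hL (hK.dilate hr) h2 u)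
  have hv1 : (volume (gainBody L)).toReal
      ≤ (r ^ m) ^ (m + 1) * (volume (gainBody K)).toReal := by
    refine (ENNReal.toReal_mono (hG.compact.smul _).measure_lt_top.ne (measure_mono hsub)).trans
      (le_of_eq ?_)
    rw [Measure.addHaar_smul, Module.finrank_fin_fun, ENNReal.toReal_mul,
      ENNReal.toReal_ofReal (abs_nonneg _), abs_of_nonneg (by positivity)]
  have hv2 : (volume K).toReal ≤ r ^ (m + 1) * (volume L).toReal := by
    refine (ENNReal.toReal_mono (hL.compact.smul _).measure_lt_top.ne (measure_mono h1)).trans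
      (le_of_eq ?_)
    rw [Measure.addHaar_smul, Module.finrank_fin_fun, ENNReal.toReal_mul,
      ENNReal.toReal_ofReal (abs_nonneg _), abs_of_nonneg (by positivity)]
  have hv2' := pow_le_pow_left₀ ENNReal.toReal_nonneg hv2 m
  have hKV := pow_pos hK.volume_pos m
  have hLV := pow_pos hL.volume_pos m
  rw [ratio, ratio, ← mul_div_assoc, div_le_div_iff₀ hLV hKV]
  calc (volume (gainBody L)).toReal * (volume K).toReal ^ m
      ≤ ((r ^ m) ^ (m + 1) * (volume (gainBody K)).toReal)
        * (r ^ (m + 1) * (volume L).toReal) ^ m :=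
        mul_le_mul hv1 hv2' hKV.le (mul_nonneg (by positivity) ENNReal.toReal_nonneg)
    _ = _ := by rw [mul_pow, ← pow_mul, ← pow_mul, mul_comm (m + 1) m, two_mul, pow_add]; ring

theorem ratio_translate (K : Set (Pt (m + 1))) (v : Pt (m + 1)) :
    ratio ((fun x => x + v) '' K) = ratio K := by
  have : gainBody ((fun x => x + v) '' K) = gainBody K := by
    ext y; simp only [gainBody, mem_ofPred_eq, gain_translate]
  rw [ratio, ratio, this, volume_translate]

/-- The ratio is invariant under linear maps. -/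
theorem ratio_image (T : Pt (m + 1) ≃ₗ[ℝ] Pt (m + 1)) (K : Set (Pt (m + 1))) :
    ratio (T '' K) = ratio K := by
  classical
  obtain ⟨hc, hT⟩ := exists_factor T
  set c := |LinearMap.det (T : Pt (m + 1) →ₗ[ℝ] Pt (m + 1))|
  set M := LinearMap.toMatrix' (T : Pt (m + 1) →ₗ[ℝ] Pt (m + 1))
  set S : Pt (m + 1) →ₗ[ℝ] Pt (m + 1) := Matrix.toLin' M.transpose
  have hdetS : |LinearMap.det S| = c := by
    simp [S, M, c, LinearMap.det_toLin', LinearMap.det_toMatrix']
  have hdot : ∀ y w, y ⬝ᵥ T w = S y ⬝ᵥ w := fun y w => by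
    have : T w = M.mulVec w := by simp [M, ← Matrix.toLin'_apply]
    rw [this, Matrix.dotProduct_mulVec, Matrix.toLin'_apply, Matrix.mulVec_transpose]
  have hset : gainBody (T '' K) = S ⁻¹' (c • gainBody K) := by
    ext y
    rw [mem_preimage, mem_smul_set_iff_inv_smul_mem₀ hc.ne']
    constructor
    · intro hy w
      have h := hy (T w)
      rw [gain_image T hT, hdot] at h
      rwa [smul_dotProduct, smul_eq_mul, inv_mul_le_iff₀ hc]
    · intro hy u
      obtain ⟨w, rfl⟩ := T.surjective u
      have h := hy w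
      rw [smul_dotProduct, smul_eq_mul, inv_mul_le_iff₀ hc] at h
      rwa [gain_image T hT, hdot]
  have hdet0 : LinearMap.det S ≠ 0 := fun h => hc.ne' (by rw [← hdetS, h, abs_zero])
  rw [ratio, ratio, hset, Measure.addHaar_preimage_linearMap _ hdet0, Measure.addHaar_smul,
    Module.finrank_fin_fun, ENNReal.toReal_mul, ENNReal.toReal_mul,
    ENNReal.toReal_ofReal (abs_nonneg _), ENNReal.toReal_ofReal (abs_nonneg _), abs_inv, hdetS,
    abs_of_nonneg (pow_nonneg hc.le _), hT, mul_pow, pow_succ]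
  field_simp

theorem body_image (T : Pt k ≃ₗ[ℝ] Pt k) {K : Set (Pt k)} (hK : P227.Zono.Body K) :
    P227.Zono.Body (T '' K) where
  compact := hK.compact.image T.toLinearMap.continuous_of_finiteDimensional
  convex := hK.convex.linear_image T.toLinearMap
  interior_nonempty := ⟨0, by
    have h : interior (T.toContinuousLinearEquiv.toHomeomorph '' K)
        = T.toContinuousLinearEquiv.toHomeomorph '' interior K := (Homeomorph.image_interior _ K).symm
    change (0 : Pt k) ∈ interior (T.toContinuousLinearEquiv.toHomeomorph '' K)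
    rw [h]
    exact ⟨0, hK.zero_interior, map_zero T⟩⟩
  neg_mem := by
    rintro _ ⟨x, hx, rfl⟩
    exact ⟨-x, hK.neg_mem x hx, map_neg T x⟩

/-- Between the cross-polytope and the cube. -/
structure Normal (K : Set (Pt (m + 1))) : Prop where
  body : P227.Zono.Body K
  single : ∀ i, Pi.single i (1 : ℝ) ∈ K
  box : ∀ x ∈ K, ∀ i, |x i| ≤ 1

/-- Every symmetric body has a linear image in normal position. -/
theorem exists_normal (hK : P227.Zono.Body K) :
    ∃ T : Pt (m + 1) ≃ₗ[ℝ] Pt (m + 1), Normal (T '' K) := by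
  classical
  set P := univ.pi fun _ : Fin (m + 1) => K
  have hP : IsCompact P := isCompact_univ_pi fun _ => hK.compact
  have h0 : (0 : Pt (m + 1)) ∈ K := interior_subset hK.zero_interior
  have hcont : Continuous fun r : Fin (m + 1) → Pt (m + 1) => |(Matrix.of r).det| :=
    (Continuous.matrix_det (continuous_id : Continuous fun r : Matrix (Fin (m + 1)) (Fin (m + 1)) ℝ => r)).abs
  obtain ⟨r, hr, hmax⟩ := hP.exists_isMaxOn ⟨fun _ => 0, fun _ _ => h0⟩ hcont.continuousOn
  have hpos : 0 < |(Matrix.of r).det| := by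
    obtain ⟨δ, hδ, hball⟩ := Metric.nhds_basis_closedBall.mem_iff.1 hK.nhds
    set r' : Fin (m + 1) → Pt (m + 1) := fun i => Pi.single i δ
    have hr' : r' ∈ P := fun i _ => hball (by
      simp [r', Metric.mem_closedBall, dist_zero_right, Pi.norm_single, abs_of_pos hδ])
    refine lt_of_lt_of_le ?_ (hmax hr')
    have : Matrix.of r' = Matrix.diagonal fun _ => δ := by
      ext i j
      rcases eq_or_ne i j with rfl | h
      · simp [r']
      · simp [r', h, h.symm]
    show 0 < |(Matrix.of r').det|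
    rw [this, Matrix.det_diagonal, Finset.prod_const]
    positivity
  set A := (Matrix.of r).transpose
  have hA : A.det ≠ 0 := by rw [Matrix.det_transpose]; exact abs_pos.1 hpos
  set S : Pt (m + 1) ≃ₗ[ℝ] Pt (m + 1) := LinearEquiv.ofInjectiveEndo (Matrix.toLin' A) (by
    intro x y h
    simp only [Matrix.toLin'_apply] at h
    exact Matrix.mulVec_injective_of_isUnit ((Matrix.isUnit_iff_isUnit_det A).2 hA.isUnit) h)
  have hS : ∀ y, S y = A.mulVec y := fun y => Matrix.toLin'_apply A y
  refine ⟨S.symm, body_image S.symm hK, fun i => ⟨r i, hr i (mem_univ i), ?_⟩, ?_⟩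
  · rw [LinearEquiv.symm_apply_eq, hS, Matrix.mulVec_single_one]
    rfl
  · rintro _ ⟨x, hx, rfl⟩ i
    set y := S.symm x
    have hxy : x = ∑ j, y j • r j := by
      have h : S y = x := S.apply_symm_apply x
      rw [← h, hS]
      funext l
      simp [Matrix.mulVec, dotProduct, A, Finset.sum_apply, mul_comm]
    have hmem : update r i x ∈ P := fun j _ => by
      rcases eq_or_ne j i with rfl | hj
      · simpa using hx
      · simpa [hj] using hr j (mem_univ j)
    have h : |(Matrix.of (update r i x)).det| ≤ |(Matrix.of r).det| := hmax hmem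
    have e : (Matrix.of (update r i x)).det = y i * (Matrix.of r).det := by
      show Matrix.det ((Matrix.of r).updateRow i x) = _
      rw [hxy]
      exact (Matrix.of r).det_updateRow_sum i y
    rw [e, abs_mul] at h
    exact le_of_mul_le_mul_right (by rwa [one_mul]) hpos

theorem Normal.norm_le_supportVal (hK : Normal K) (u : Pt (m + 1)) :
    ‖u‖ ≤ P227.Zono.supportVal K u := by
  have h0 := supportVal_nonneg hK.body.compact (interior_subset hK.body.zero_interior) u
  refine (pi_norm_le_iff_of_nonneg h0).2 fun i => ?_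
  rw [Real.norm_eq_abs, abs_le']
  constructor
  · simpa using le_supportVal hK.body.compact (hK.single i) u
  · simpa using le_supportVal hK.body.compact (hK.body.neg_mem _ (hK.single i)) u

theorem Normal.supportVal_le (hK : Normal K) (u : Pt (m + 1)) :
    P227.Zono.supportVal K u ≤ ((m : ℝ) + 1) * ‖u‖ := by
  obtain ⟨x, hx, he⟩ := exists_supportVal hK.body.compact ⟨_, hK.single 0⟩ u
  rw [← he]
  refine (Finset.sum_le_sum fun i _ => ?_).trans (le_of_eq (show ∑ _i : Fin (m + 1), ‖u‖ =
    ((m : ℝ) + 1) * ‖u‖ by simp))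
  refine (le_abs_self _).trans ?_
  rw [abs_mul]
  exact (mul_le_mul (norm_le_pi_norm u i) (hK.box x hx i) (abs_nonneg _) (norm_nonneg _)).trans_eq
    (mul_one _)

theorem Normal.abs_sub_le (hK : Normal K) (u v : Pt (m + 1)) :
    |P227.Zono.supportVal K u - P227.Zono.supportVal K v| ≤ ((m : ℝ) + 1) * ‖u - v‖ := by
  have key : ∀ u v, P227.Zono.supportVal K u
      ≤ P227.Zono.supportVal K v + ((m : ℝ) + 1) * ‖u - v‖ := fun u v => by
    obtain ⟨x, hx, he⟩ := exists_supportVal hK.body.compact ⟨_, hK.single 0⟩ u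
    rw [← he, show u ⬝ᵥ x = v ⬝ᵥ x + (u - v) ⬝ᵥ x by rw [sub_dotProduct]; ring]
    exact add_le_add (le_supportVal hK.body.compact hx v)
      ((le_supportVal hK.body.compact hx _).trans (hK.supportVal_le _))
  have h1 := key u v
  have h2 := key v u
  rw [norm_sub_rev v u] at h2
  rw [abs_le]
  constructor <;> linarith

theorem supportVal_smul_left {G : Set (Pt k)} (u : Pt k) {r : ℝ} (hr : 0 ≤ r) :
    P227.Zono.supportVal (r • G) u = r * P227.Zono.supportVal G u := by
  rw [P227.Zono.supportVal, P227.Zono.supportVal, ← smul_eq_mul, ← Real.sSup_smul_of_nonneg hr]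
  congr 1
  rw [← image_smul, ← image_smul, image_image, image_image]
  refine image_congr fun x _ => ?_
  simp [dotProduct_smul]

theorem body_dilate {G : Set (Pt (m + 1))} (hG : P227.Zono.Body G) {r : ℝ} (hr : 0 < r) :
    P227.Zono.Body (r • G) where
  compact := hG.compact.smul r
  convex := hG.convex.smul r
  interior_nonempty := ⟨0, mem_interior_iff_mem_nhds.2 ((Cvx.of_body hG).dilate hr).nhds⟩
  neg_mem := by
    rintro _ ⟨x, hx, rfl⟩
    exact ⟨-x, hG.neg_mem x hx, smul_neg r x⟩

/-- A minimiser of the ratio over symmetric bodies, hence over all bodies. -/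
theorem exists_min (m : ℕ) : ∃ K : Set (Pt (m + 1)), P227.Zono.Body K ∧
    ∀ L : Set (Pt (m + 1)), Cvx L → ratio K ≤ ratio L := by
  classical
  set R := {t : ℝ | ∃ L : Set (Pt (m + 1)), Normal L ∧ ratio L = t}
  have hne : R.Nonempty := by
    have hc : Cvx (Metric.closedBall (0 : Pt (m + 1)) 1) :=
      ⟨isCompact_closedBall _ _, convex_closedBall _ _, Metric.closedBall_mem_nhds _ one_pos⟩
    obtain ⟨T, hT⟩ := exists_normal hc.body_gainBody
    exact ⟨_, _, hT, rfl⟩
  have hbdd : BddBelow R := ⟨0, by rintro _ ⟨L, -, rfl⟩; exact ratio_nonneg L⟩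
  set ι := sInf R
  have hι : ∀ L : Set (Pt (m + 1)), Cvx L → ι ≤ ratio L := fun L hL => by
    obtain ⟨T, hT⟩ := exists_normal hL.body_gainBody
    exact (csInf_le hbdd ⟨_, hT, rfl⟩).trans
      ((ratio_image T _).le.trans (ratio_gainBody_le hL))
  have hseq : ∀ j : ℕ, ∃ L : Set (Pt (m + 1)), Normal L ∧ ratio L < ι + 1 / ((j : ℝ) + 1) := by
    intro j
    obtain ⟨t, ⟨L, hL, rfl⟩, ht⟩ := exists_lt_of_csInf_lt hne
      (show sInf R < ι + 1 / ((j : ℝ) + 1) from lt_add_of_pos_right ι (by positivity))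
    exact ⟨L, hL, ht⟩
  choose Kj hKj hlt using hseq
  set U : Ultrafilter ℕ := Ultrafilter.of atTop
  set C : ℝ := (m : ℝ) + 1
  have hlim : ∀ u : Pt (m + 1), ∃ y,
      Tendsto (fun j => P227.Zono.supportVal (Kj j) u) (U : Filter ℕ) (𝓝 y) := fun u => by
    obtain ⟨y, -, hy⟩ := (isCompact_Icc (a := (0 : ℝ)) (b := C * ‖u‖)).ultrafilter_le_nhds
      (U.map fun j => P227.Zono.supportVal (Kj j) u) (le_principal_iff.2 (Ultrafilter.mem_map.2
        (Eventually.of_forall fun j =>
          ⟨(norm_nonneg u).trans ((hKj j).norm_le_supportVal u), (hKj j).supportVal_le u⟩)))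
    exact ⟨y, hy⟩
  choose h hh using hlim
  set G : Set (Pt (m + 1)) := {x | ∀ u, u ⬝ᵥ x ≤ h u}
  have hlow : ∀ u, ‖u‖ ≤ h u := fun u =>
    ge_of_tendsto (hh u) (Eventually.of_forall fun j => (hKj j).norm_le_supportVal u)
  have hupp : ∀ u, h u ≤ C * ‖u‖ := fun u =>
    le_of_tendsto (hh u) (Eventually.of_forall fun j => (hKj j).supportVal_le u)
  have hlip : ∀ u v, |h u - h v| ≤ C * ‖u - v‖ := fun u v =>
    le_of_tendsto (((hh u).sub (hh v)).abs) (Eventually.of_forall fun j => (hKj j).abs_sub_le u v)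
  have hclose : ∀ δ : ℝ, 0 < δ → ∀ᶠ j in (U : Filter ℕ), ∀ u,
      |P227.Zono.supportVal (Kj j) u - h u| ≤ δ * ‖u‖ := by
    intro δ hδ
    set η := δ / (4 * C)
    obtain ⟨t, hts, htf, hcov⟩ := (isCompact_sphere (0 : Pt (m + 1)) 1).finite_cover_balls
      (show 0 < η by positivity)
    have hev : ∀ᶠ j in (U : Filter ℕ), ∀ x ∈ t, |P227.Zono.supportVal (Kj j) x - h x| ≤ δ / 4 :=
      (eventually_all_finite htf).2 fun x _ => (hh x).eventually_mem
        (Metric.closedBall_mem_nhds (h x) (by positivity : (0 : ℝ) < δ / 4)) |>.mono fun j hj => by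
          simpa [Metric.mem_closedBall, Real.dist_eq] using hj
    filter_upwards [hev] with j hj u
    rcases eq_or_ne u 0 with rfl | hu
    · have h1 := (hKj j).norm_le_supportVal (0 : Pt (m + 1))
      have h2 := (hKj j).supportVal_le (0 : Pt (m + 1))
      have h3 := hlow 0
      have h4 := hupp 0
      simp only [norm_zero, mul_zero] at h1 h2 h3 h4 ⊢
      rw [abs_le]; constructor <;> linarith
    have hn := norm_pos_iff.2 hu
    set e := ‖u‖⁻¹ • u
    have he : e ∈ Metric.sphere (0 : Pt (m + 1)) 1 := by simp [e, norm_smul, hn.ne']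
    obtain ⟨x, hx, hxe⟩ := mem_iUnion₂.1 (hcov he)
    rw [Metric.mem_ball, dist_eq_norm] at hxe
    have hhom : ∀ i, P227.Zono.supportVal (Kj i) u = ‖u‖ * P227.Zono.supportVal (Kj i) e := by
      intro i
      have := (hKj i).body.supportVal_smul ‖u‖ e
      rw [abs_of_pos hn, smul_smul, mul_inv_cancel₀ hn.ne', one_smul] at this
      exact this
    have hhu : h u = ‖u‖ * h e :=
      tendsto_nhds_unique ((hh u).congr hhom) ((hh e).const_mul _)
    rw [hhom, hhu, ← mul_sub, abs_mul, abs_of_pos hn, mul_comm δ]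
    refine mul_le_mul_of_nonneg_left ?_ hn.le
    have hC0 : C ≠ 0 := by positivity
    have hCη : C * η = δ / 4 := by simp only [η]; field_simp
    have hb1 := (hKj j).abs_sub_le e x
    have hb2 := hlip x e
    rw [norm_sub_rev x e] at hb2
    have hb3 := hj x hx
    have hmul : C * ‖e - x‖ ≤ δ / 4 := hCη ▸ mul_le_mul_of_nonneg_left hxe.le (by positivity)
    rw [abs_le] at hb1 hb2 hb3 ⊢
    constructor <;> linarith
  have hsand : ∀ δ : ℝ, 0 < δ → ∀ᶠ j in (U : Filter ℕ),
      Kj j ⊆ (1 + δ) • G ∧ G ⊆ (1 + δ) • Kj j := by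
    intro δ hδ
    filter_upwards [hclose δ hδ] with j hj
    refine ⟨fun x hx => ?_, fun z hz => ?_⟩
    · rw [mem_smul_set_iff_inv_smul_mem₀ (by positivity)]
      intro u
      rw [dotProduct_smul, smul_eq_mul, inv_mul_le_iff₀ (by positivity)]
      have h1 := le_supportVal (hKj j).body.compact hx u
      have h2 := (abs_le.1 (hj u)).2
      nlinarith [hlow u]
    · refine mem_smul_of_dot_le (hKj j).body.compact (hKj j).body.convex ⟨_, (hKj j).single 0⟩
        fun u => ?_
      have h2 := (abs_le.1 (hj u)).1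
      nlinarith [hz u, (hKj j).norm_le_supportVal u]
  have hGbody : P227.Zono.Body G := by
    obtain ⟨j, hj1, hj2⟩ := (hsand 1 one_pos).exists
    refine ⟨((hKj j).body.compact.smul _).of_isClosed_subset ?_ hj2, ?_, ?_, ?_⟩
    · simp only [G, ofPred_forall]
      exact isClosed_iInter fun u => isClosed_le (continuous_dot u) continuous_const
    · intro x hx y hy a b ha hb hab u
      rw [dotProduct_add, dotProduct_smul, dotProduct_smul, smul_eq_mul, smul_eq_mul]
      calc a * (u ⬝ᵥ x) + b * (u ⬝ᵥ y) ≤ a * h u + b * h u :=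
            add_le_add (mul_le_mul_of_nonneg_left (hx u) ha) (mul_le_mul_of_nonneg_left (hy u) hb)
        _ = h u := by rw [← add_mul, hab, one_mul]
    · refine ⟨0, mem_interior_iff_mem_nhds.2 ?_⟩
      refine mem_of_superset ((Cvx.of_body (body_dilate (hKj j).body
        (show (0 : ℝ) < (1 + 1)⁻¹ by norm_num))).nhds) ?_
      intro x hx
      rw [mem_smul_set_iff_inv_smul_mem₀ (by norm_num), inv_inv] at hx
      obtain ⟨g, hg, he⟩ := hj1 hx
      have : g = x := smul_right_injective _ (by norm_num : (1 + 1 : ℝ) ≠ 0) he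
      exact this ▸ hg
    · intro x hx u
      have hsym : h (-u) = h u := tendsto_nhds_unique ((hh (-u)).congr fun j => by
        have := (hKj j).body.supportVal_smul (-1) u
        simpa using this) (hh u)
      rw [dotProduct_neg, ← neg_dotProduct, ← hsym]
      exact hx (-u)
  refine ⟨G, hGbody, fun L hL => le_trans ?_ (hι L hL)⟩
  have key : ∀ δ : ℝ, 0 < δ → ratio G ≤ (1 + δ) ^ (2 * (m * (m + 1))) * (ι + δ) := by
    intro δ hδ
    obtain ⟨N, hN⟩ := exists_nat_gt (1 / δ)
    have hev : ∀ᶠ j in (U : Filter ℕ), N ≤ j := Ultrafilter.of_le atTop (eventually_ge_atTop N)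
    obtain ⟨j, hjN, hj1, hj2⟩ := (hev.and (hsand δ hδ)).exists
    refine (ratio_le_of_subset (Cvx.of_body (hKj j).body) (Cvx.of_body hGbody) (by linarith) hj1
      hj2).trans (mul_le_mul_of_nonneg_left ((hlt j).le.trans (add_le_add le_rfl ?_)) (by positivity))
    have : (N : ℝ) ≤ j := Nat.cast_le.2 hjN
    rw [div_le_iff₀ (by positivity)]
    rw [div_lt_iff₀ hδ] at hN
    nlinarith
  refine ge_of_tendsto (x := 𝓝[>] (0 : ℝ)) ((Continuous.tendsto'
    (f := fun δ : ℝ => (1 + δ) ^ (2 * (m * (m + 1))) * (ι + δ)) (by fun_prop) 0 ι (by simp)).mono_left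
    nhdsWithin_le_nhds) ?_
  filter_upwards [self_mem_nhdsWithin] with δ hδ
  exact key δ hδ

/-- A minimiser solves `Π Π K = c K`; its projection volumes are proportional to support values. -/
theorem minimiser_structure {K : Set (Pt (k + 2))} (hK : P227.Zono.Body K)
    (hmin : ∀ L : Set (Pt (k + 2)), Cvx L → ratio K ≤ ratio L) :
    ∃ c : ℝ, 0 < c ∧ gainBody (gainBody K) = c • K ∧
      (volume (gainBody K)).toReal = c * (volume K).toReal ∧
      ∀ u, gain (gainBody K) u = c * P227.Zono.supportVal K u := by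
  have hC := Cvx.of_body hK
  obtain ⟨c, v, hc, he⟩ := homothetic_of_ratio_eq hC (hmin _ hC.cvx_gainBody)
  have hG := hC.cvx_gainBody
  have hv : v = 0 := by
    obtain ⟨x, hx, hmax⟩ := exists_supportVal (hC.dilate hc).compact (hC.dilate hc).nonempty v
    have h1 : x + v ∈ gainBody (gainBody K) := he ▸ ⟨x, hx, rfl⟩
    have h2 := hG.body_gainBody.neg_mem _ h1
    rw [he] at h2
    obtain ⟨y, hy, hye⟩ := h2
    have h3 := le_supportVal (hC.dilate hc).compact ((body_dilate hK hc).neg_mem y hy) v
    have hy' : -y = x + v + v := by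
      have h4 : y + v = -(x + v) := hye
      rw [show y = -(x + v) - v from eq_sub_of_add_eq h4]
      abel
    rw [hy', dotProduct_add, dotProduct_add, hmax] at h3
    have h5 : v ⬝ᵥ v ≤ 0 := by linarith
    exact dotProduct_self_eq_zero.1 (le_antisymm h5
      (Finset.sum_nonneg fun i _ => mul_self_nonneg _))
  subst hv
  simp only [add_zero, image_id'] at he
  have hgain : ∀ u, gain (gainBody K) u = c * P227.Zono.supportVal K u := fun u => by
    rw [← hG.supportVal_gainBody u, he, supportVal_smul_left u hc.le]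
  refine ⟨c, hc, he, ?_, hgain⟩
  rw [← mixedVol_second hC, ← mixedVol_self hC, mixedVol, mixedVol, ← integral_const_mul, he]
  refine integral_congr_ae (Eventually.of_forall fun x => ?_)
  exact supportVal_smul_left _ hc.le

/-- A minimiser over all bodies is symmetric about some point. -/
theorem minimiser_symmetric {K : Set (Pt (k + 2))} (hK : Cvx K)
    (hmin : ∀ L : Set (Pt (k + 2)), Cvx L → ratio K ≤ ratio L) :
    ∃ v : Pt (k + 2), P227.Zono.Body ((fun x => x + v) '' K) := by
  obtain ⟨c, v, hc, he⟩ := homothetic_of_ratio_eq hK (hmin _ hK.cvx_gainBody)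
  refine ⟨c⁻¹ • v, ?_⟩
  have e : (fun x => x + c⁻¹ • v) '' K = c⁻¹ • gainBody (gainBody K) := by
    rw [he]
    simp only [← image_smul, image_image, smul_add, inv_smul_smul₀ hc.ne']
  rw [e]
  exact body_dilate hK.cvx_gainBody.body_gainBody (inv_pos.2 hc)

end Vale.Agent.P237.Full
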