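import Vale.Agent.P237.Full.Defs3
import Vale.Agent.P237.Euclid

/-!
# P237: the projection body of the ball in three-space
-/

namespace Vale.Agent.P237.Full

open MeasureTheory Set Function
open scoped ENNReal Pointwise RealInnerProductSpace

theorem toLp_ball3 :
    (WithLp.toLp 2 '' ball3 : Set (EuclideanSpace ℝ (Fin 3))) = Metric.closedBall 0 1 := by
  ext x
  rw [mem_closedBall_zero_iff]
  have e : WithLp.ofLp x ⬝ᵥ WithLp.ofLp x = ‖x‖ ^ 2 := by
    rw [EuclideanSpace.norm_sq_eq]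
    simp [dotProduct, sq]
  constructor
  · rintro ⟨z, hz, rfl⟩
    rw [← abs_norm, ← sq_le_one_iff_abs_le_one, ← e]
    exact hz
  · intro hx
    refine ⟨WithLp.ofLp x, ?_, by simp⟩
    show _ ≤ (1 : ℝ)
    rw [e]
    exact pow_le_one₀ (norm_nonneg x) hx

theorem isCompact_ball3 : IsCompact ball3 := by
  have h := (isCompact_closedBall (0 : EuclideanSpace ℝ (Fin 3)) 1).image
    (PiLp.continuous_ofLp 2 _)
  rwa [← toLp_ball3, image_image, image_id'] at h

theorem convex_ball3 : Convex ℝ ball3 := by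
  have h := (convex_closedBall (0 : EuclideanSpace ℝ (Fin 3)) 1).linear_image
    (WithLp.linearEquiv 2 ℝ (Fin 3 → ℝ)).toLinearMap
  rw [← toLp_ball3] at h
  simpa [image_image] using h

theorem cvx_ball3 : Cvx ball3 := by
  refine ⟨isCompact_ball3, convex_ball3, ?_⟩
  have hc : Continuous fun x : Pt 3 => x ⬝ᵥ x :=
    continuous_finsetSum _ fun i _ => (continuous_apply i).mul (continuous_apply i)
  exact hc.continuousAt.preimage_mem_nhds (Iic_mem_nhds (by simp))

theorem volume_ball3 : (volume ball3).toReal = 4 * Real.pi / 3 := by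
  have h : volume (WithLp.toLp 2 '' ball3 : Set (EuclideanSpace ℝ (Fin 3))) = volume ball3 := by
    rw [← (PiLp.volume_preserving_toLp (Fin 3)).measure_preimage
      ((isCompact_ball3.image (PiLp.continuous_toLp 2 _)).measurableSet.nullMeasurableSet),
      preimage_image_eq _ (WithLp.toLp_injective 2)]
  rw [← h, toLp_ball3, EuclideanSpace.volume_closedBall_fin_three]
  simp only [ENNReal.ofReal_one, one_pow, one_mul]
  rw [ENNReal.toReal_ofReal (by positivity)]
  ring

theorem gain_ball3_unit {u : EuclideanSpace ℝ (Fin 3)} (hu : ‖u‖ = 1) :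
    gain ball3 (WithLp.ofLp u) = Real.pi := by
  rw [gain_eq_proj isCompact_ball3 convex_ball3 hu, toLp_ball3]
  set U := (ℝ ∙ u)ᗮ
  have himg : U.orthogonalProjectionOnto '' Metric.closedBall 0 1 = Metric.closedBall (0 : U) 1 := by
    ext y
    rw [mem_closedBall_zero_iff]
    constructor
    · rintro ⟨x, hx, rfl⟩
      rw [mem_closedBall_zero_iff] at hx
      exact (U.norm_orthogonalProjectionOnto_apply_le x).trans hx
    · intro hy
      refine ⟨y, by rw [mem_closedBall_zero_iff]; exact hy, ?_⟩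
      exact Submodule.orthogonalProjectionOnto_mem_subspace_eq_self y
  have : Fact (Module.finrank ℝ (EuclideanSpace ℝ (Fin 3)) = 2 + 1) :=
    ⟨finrank_euclideanSpace_fin⟩
  have hdim : Module.finrank ℝ U = 2 :=
    Submodule.finrank_orthogonal_span_singleton (by
      intro h0; rw [h0, norm_zero] at hu; norm_num at hu)
  have : Nontrivial U := Module.nontrivial_of_finrank_pos (R := ℝ) (by omega)
  rw [himg, InnerProductSpace.volume_closedBall, hdim]
  norm_num [Real.Gamma_nat_eq_factorial, Real.sq_sqrt Real.pi_pos.le, Real.pi_pos.le]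

theorem gain_ball3 (u : Pt 3) : gain ball3 u = Real.pi * √(u ⬝ᵥ u) := by
  rcases eq_or_ne u 0 with rfl | hu
  · simp [gain_zero]
  set w : EuclideanSpace ℝ (Fin 3) := WithLp.toLp 2 u
  have hw : ‖w‖ = √(u ⬝ᵥ u) := by
    rw [EuclideanSpace.norm_eq]
    simp [w, dotProduct, sq]
  have hw0 : 0 < ‖w‖ := norm_pos_iff.2 fun h => hu (by simpa [w] using congrArg WithLp.ofLp h)
  have h := gain_ball3_unit (u := ‖w‖⁻¹ • w) (by rw [norm_smul, norm_inv, norm_norm, inv_mul_cancel₀ hw0.ne'])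
  rw [WithLp.ofLp_smul, gain_smul isCompact_ball3 convex_ball3 _ (inv_nonneg.2 hw0.le)] at h
  rw [← hw, ← h]
  show gain ball3 u = ‖w‖⁻¹ * gain ball3 u * ‖w‖
  field_simp

theorem gainBody_ball3 : gainBody ball3 = Real.pi • ball3 := by
  ext y
  rw [mem_smul_set_iff_inv_smul_mem₀ Real.pi_ne_zero]
  show (∀ u, y ⬝ᵥ u ≤ gain ball3 u) ↔ (Real.pi⁻¹ • y) ⬝ᵥ (Real.pi⁻¹ • y) ≤ 1
  simp only [gain_ball3, smul_dotProduct, dotProduct_smul, smul_eq_mul]
  have hyy : 0 ≤ y ⬝ᵥ y := Finset.sum_nonneg fun i _ => mul_self_nonneg _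
  have hpi := Real.pi_pos
  constructor
  · intro h
    have h1 := h y
    rw [← mul_assoc, ← mul_inv, inv_mul_le_iff₀ (by positivity), mul_one]
    nlinarith [Real.sq_sqrt hyy, Real.sqrt_nonneg (y ⬝ᵥ y)]
  · intro h u
    rw [← mul_assoc, ← mul_inv, inv_mul_le_iff₀ (by positivity), mul_one] at h
    have hcs : (y ⬝ᵥ u) ^ 2 ≤ (y ⬝ᵥ y) * (u ⬝ᵥ u) := by
      simp only [dotProduct, ← pow_two]
      exact Finset.sum_mul_sq_le_sq_mul_sq Finset.univ y u
    have huu : 0 ≤ u ⬝ᵥ u := Finset.sum_nonneg fun i _ => mul_self_nonneg _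
    have : (y ⬝ᵥ u) ^ 2 ≤ (Real.pi * √(u ⬝ᵥ u)) ^ 2 := by
      rw [mul_pow, Real.sq_sqrt huu, sq Real.pi]
      exact hcs.trans (mul_le_mul_of_nonneg_right h huu)
    exact (le_abs_self _).trans (abs_le_of_sq_le_sq this (by positivity))

/-- The ratio of the ball. -/
theorem ratio_ball : ratio ball3 = 3 * Real.pi ^ 2 / 4 := by
  rw [ratio, gainBody_ball3, Measure.addHaar_smul, Module.finrank_fin_fun, ENNReal.toReal_mul,
    ENNReal.toReal_ofReal (abs_nonneg _), abs_of_nonneg (pow_nonneg Real.pi_pos.le _), volume_ball3]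
  field_simp

end Vale.Agent.P237.Full
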