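import Vale.Agent.P237.Full.Minimiser
import Vale.Agent.P237.Full.Ball

/-!
# P237: Petty's inequality in three-space from the bound for fixed bodies
-/

namespace Vale.Agent.P237.Full

open MeasureTheory Set Function Topology
open scoped Pointwise RealInnerProductSpace

/-- What is needed from the slicing argument. -/
def CoreBound : Prop :=
  ∀ (K : Set (Pt 3)), P227.Zono.Body K → ∀ c : ℝ,
    (∀ u, gain (gainBody K) u = c * P227.Zono.supportVal K u) →
    3 * Real.pi ^ 2 / 4 * (volume K).toReal ≤ c ∧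
      (c ≤ 3 * Real.pi ^ 2 / 4 * (volume K).toReal → ∃ T : Pt 3 ≃ₗ[ℝ] Pt 3, K = T '' ball3)

/-- Euclidean space and its coordinates. -/
noncomputable def coords (n : ℕ) : EuclideanSpace ℝ (Fin n) ≃ₗ[ℝ] Pt n :=
  WithLp.linearEquiv 2 ℝ (Pt n)

theorem volume_toLp {n : ℕ} {s : Set (Pt n)} (hs : MeasurableSet s) :
    volume (WithLp.toLp 2 '' s : Set (EuclideanSpace ℝ (Fin n))) = volume s := by
  have he : MeasurableEmbedding (WithLp.toLp 2 : Pt n → EuclideanSpace ℝ (Fin n)) :=
    (MeasurableEquiv.toLp 2 (Pt n)).measurableEmbedding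
  rw [← (PiLp.volume_preserving_toLp (Fin n)).measure_preimage
    (he.measurableSet_image.2 hs).nullMeasurableSet, preimage_image_eq _ (WithLp.toLp_injective 2)]

theorem ball_constant : unitBallVolume 2 ^ 3 * unitBallVolume 3 ^ (2 - (3 : ℤ))
    = 3 * Real.pi ^ 2 / 4 := by
  have h0 : unitBallVolume 0 = 1 := by simp [unitBallVolume_eq]
  have h1 : unitBallVolume 1 = 2 := by
    rw [unitBallVolume_eq, pow_one, Nat.cast_one, show (1 : ℝ) / 2 + 1 = 1 / 2 + 1 from rfl,
      Real.Gamma_add_one (by norm_num), Real.Gamma_one_half_eq]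
    field_simp [(Real.sqrt_pos.2 Real.pi_pos).ne']
  have h2 := unitBallVolume_add_two 0
  have h3 := unitBallVolume_add_two 1
  rw [h0] at h2; rw [h1] at h3
  norm_num at h2 h3
  rw [h2, h3, show (2 - (3 : ℤ)) = -1 by norm_num, zpow_neg_one]
  field_simp
  ring

/-- The lower bound on the ratio, with the equality cases. -/
theorem ratio_lower (hcore : CoreBound) {L : Set (Pt 3)} (hL : Cvx L) :
    3 * Real.pi ^ 2 / 4 ≤ ratio L ∧ (ratio L ≤ 3 * Real.pi ^ 2 / 4 →
      ∃ (T : Pt 3 ≃ₗ[ℝ] Pt 3) (a : Pt 3), L = (fun x => T x + a) '' ball3) := by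
  have hfix : ∀ K : Set (Pt 3), P227.Zono.Body K →
      (∀ L : Set (Pt 3), Cvx L → ratio K ≤ ratio L) →
      3 * Real.pi ^ 2 / 4 ≤ ratio K ∧
        (ratio K ≤ 3 * Real.pi ^ 2 / 4 → ∃ T : Pt 3 ≃ₗ[ℝ] Pt 3, K = T '' ball3) := by
    intro K hK hmin
    obtain ⟨c, hc, hv⟩ := minimiser_fixed hK hmin
    obtain ⟨h1, h2⟩ := hcore K hK c hc
    have hpos := (Cvx.of_body hK).volume_pos
    have e : ratio K = c / (volume K).toReal := by
      rw [ratio, hv, sq, mul_div_mul_right _ _ hpos.ne']
    rw [e, le_div_iff₀ hpos, div_le_iff₀ hpos]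
    exact ⟨h1, h2⟩
  obtain ⟨K₀, hK₀, hmin₀⟩ := exists_minimiser
  have hlow : ∀ L : Set (Pt 3), Cvx L → 3 * Real.pi ^ 2 / 4 ≤ ratio L := fun L hL =>
    (hfix K₀ hK₀ hmin₀).1.trans (hmin₀ L hL)
  refine ⟨hlow L hL, fun hle => ?_⟩
  have h1 := ratio_gainBody_le hL
  have h2 := ratio_gainBody_le hL.cvx_gainBody
  obtain ⟨T, hT⟩ := (hfix _ hL.cvx_gainBody.body_gainBody
    fun M hM => (h2.trans (h1.trans hle)).trans (hlow M hM)).2 (h2.trans (h1.trans hle))
  obtain ⟨r, a, hr, he⟩ := ratio_eq_homothetic hL (hle.trans (hlow _ hL.cvx_gainBody))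
  refine ⟨T.trans (LinearEquiv.smulOfUnit (Units.mk0 r hr.ne')), a, ?_⟩
  rw [he, hT, image_image]
  rfl

/-- Petty's inequality in three-space, given the bound for fixed bodies. -/
theorem petty_three_of (hcore : CoreBound) {K : Set (EuclideanSpace ℝ (Fin 3))} (hK : IsCompact K)
    (hc : Convex ℝ K) (hi : (interior K).Nonempty) :
    unitBallVolume 2 ^ 3 * unitBallVolume 3 ^ (2 - (3 : ℤ)) * euclVolume 3 K ^ 2
        ≤ euclVolume 3 (projBody K) ∧
      (euclVolume 3 (projBody K)
          = unitBallVolume 2 ^ 3 * unitBallVolume 3 ^ (2 - (3 : ℤ)) * euclVolume 3 K ^ 2 ↔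
        ∃ (T : EuclideanSpace ℝ (Fin 3) ≃ₗ[ℝ] EuclideanSpace ℝ (Fin 3))
          (a : EuclideanSpace ℝ (Fin 3)), K = (fun x => T x + a) '' Metric.closedBall 0 1) := by
  set K' := WithLp.ofLp '' K
  have hKK : WithLp.toLp 2 '' K' = K := by simp [K', image_image]
  have hK' : IsCompact K' := hK.image (PiLp.continuous_ofLp 2 _)
  have hc' : Convex ℝ K' := hc.linear_image (coords 3).toLinearMap
  obtain ⟨p, hp⟩ := hi
  set v : Pt 3 := -WithLp.ofLp p
  set L := (fun x => x + v) '' K'
  have hL : Cvx L := by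
    refine ⟨hK'.image (continuous_id.add continuous_const), ?_, ?_⟩
    · simpa [L, add_comm] using hc'.translate v
    · have hF : Continuous fun z : Pt 3 => WithLp.toLp 2 (z - v) :=
        (PiLp.continuous_toLp 2 _).comp (continuous_id.sub continuous_const)
      have h0 : K ∈ 𝓝 (WithLp.toLp 2 ((0 : Pt 3) - v)) := by
        simpa [v] using mem_interior_iff_mem_nhds.1 hp
      refine Filter.mem_of_superset (hF.continuousAt h0) fun z hz => ?_
      exact ⟨z - v, ⟨_, hz, rfl⟩, sub_add_cancel z v⟩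
  have hvolL : (volume L).toReal = euclVolume 3 K := by
    rw [euclVolume, ← hKK, volume_toLp hK'.measurableSet, volume_translate]
  have hproj : euclVolume 3 (projBody K) = (volume (gainBody K')).toReal := by
    rw [euclVolume, ← hKK, projBody_eq hK' hc', volume_toLp (isClosed_gainBody _).measurableSet]
  have hpos : 0 < euclVolume 3 K := hvolL ▸ hL.volume_pos
  have hratio : ratio L = euclVolume 3 (projBody K) / euclVolume 3 K ^ 2 := by
    rw [ratio_translate, ratio, hproj, ← hvolL, volume_translate]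
  obtain ⟨h1, h2⟩ := ratio_lower hcore hL
  rw [hratio, le_div_iff₀ (by positivity)] at h1
  rw [hratio, div_le_iff₀ (by positivity)] at h2
  rw [ball_constant]
  refine ⟨h1, fun h => ?_, ?_⟩
  · obtain ⟨T, a, hT⟩ := h2 h.le
    refine ⟨(coords 3).trans (T.trans (coords 3).symm), WithLp.toLp 2 (a - v), ?_⟩
    have e : K' = (fun x => x - v) '' L := by
      simp only [L, image_image, add_sub_cancel_right, image_id']
    rw [← hKK, e, hT, ← toLp_ball3]
    simp only [image_image]
    refine image_congr fun x _ => ?_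
    rw [add_sub_assoc]
    rfl
  · rintro ⟨T, a, hT⟩
    have e : K' = (fun x => x + WithLp.ofLp a) ''
        (((coords 3).symm.trans (T.trans (coords 3))) '' ball3) := by
      simp only [K', hT, ← toLp_ball3, image_image]
      rfl
    have hr : ratio L = 3 * Real.pi ^ 2 / 4 := by
      rw [ratio_translate, e, ratio_translate, ratio_image, ratio_ball]
    rw [hratio, div_eq_iff (by positivity)] at hr
    exact hr

end Vale.Agent.P237.Full
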