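import Vale.Agent.P237.Full.Mixed

/-!
# P237: the parallel slices of a convex body and their distribution
-/

namespace Vale.Agent.P237.Full

open MeasureTheory Set Function Topology Filter
open scoped ENNReal NNReal Pointwise

variable {k : ℕ} {A : Set (Pt (k + 1) × ℝ)}

/-- A compact convex subset of a product with the origin inside. -/
structure Solid (A : Set (Pt (k + 1) × ℝ)) : Prop where
  compact : IsCompact A
  convex : Convex ℝ A
  nhds : A ∈ 𝓝 (0 : Pt (k + 1) × ℝ)

/-- The lowest height. -/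
noncomputable def lo (A : Set (Pt (k + 1) × ℝ)) : ℝ := sInf (Prod.snd '' A)

/-- The largest height. -/
noncomputable def hi (A : Set (Pt (k + 1) × ℝ)) : ℝ := sSup (Prod.snd '' A)

/-- The area of the slice at a height. -/
noncomputable def sliceVol (A : Set (Pt (k + 1) × ℝ)) (z : ℝ) : ℝ := (volume (slice A z)).toReal

/-- The volume below a height. -/
noncomputable def below (A : Set (Pt (k + 1) × ℝ)) (z : ℝ) : ℝ :=
  ∫ t in lo A..z, sliceVol A t

namespace Solid

theorem snd_image (hA : Solid A) : Prod.snd '' A = Icc (lo A) (hi A) :=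
  eq_interval (hA.compact.image continuous_snd) (hA.convex.linear_image (LinearMap.snd ℝ _ ℝ))
    ⟨0, 0, mem_of_mem_nhds hA.nhds, rfl⟩

theorem mem_Icc (hA : Solid A) {p : Pt (k + 1) × ℝ} (hp : p ∈ A) : p.2 ∈ Icc (lo A) (hi A) := by
  rw [← hA.snd_image]; exact mem_image_of_mem _ hp

theorem lo_neg (hA : Solid A) : lo A < 0 ∧ 0 < hi A := by
  have h : Prod.snd '' A ∈ 𝓝 (0 : ℝ) := by
    have := isOpenMap_snd.image_mem_nhds hA.nhds
    simpa using this
  rw [hA.snd_image] at h
  exact Icc_mem_nhds_iff.1 h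

theorem lo_lt_hi (hA : Solid A) : lo A < hi A := hA.lo_neg.1.trans hA.lo_neg.2

theorem isCompact_slice (hA : Solid A) (z : ℝ) : IsCompact (slice A z) := by
  refine (hA.compact.image continuous_fst).of_isClosed_subset
    (hA.compact.isClosed.preimage (Continuous.prodMk_left z)) fun x hx => ?_
  exact ⟨(x, z), hx, rfl⟩

theorem slice_combo (hA : Solid A) {a b : ℝ} (ha : 0 ≤ a) (hb : 0 ≤ b) (hab : a + b = 1)
    (z w : ℝ) : a • slice A z + b • slice A w ⊆ slice A (a * z + b * w) := by
  rintro _ ⟨_, ⟨x, hx, rfl⟩, _, ⟨y, hy, rfl⟩, rfl⟩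
  exact hA.convex hx hy ha hb hab

theorem slice_pos (hA : Solid A) {z : ℝ} (hz : z ∈ Ioo (lo A) (hi A)) :
    0 < sliceVol A z := by
  have hnh : slice A 0 ∈ 𝓝 (0 : Pt (k + 1)) :=
    (Continuous.prodMk_left (0 : ℝ)).continuousAt.preimage_mem_nhds hA.nhds
  have hvol : 0 < volume (slice A 0) := (isOpen_interior.measure_pos volume
    ⟨0, mem_interior_iff_mem_nhds.2 hnh⟩).trans_le (measure_mono interior_subset)
  obtain ⟨e, he, he0, hθ0, hθ1⟩ : ∃ e ∈ Prod.snd '' A, e ≠ 0 ∧ 0 ≤ z / e ∧ z / e < 1 := by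
    rcases le_or_gt 0 z with h | h
    · exact ⟨hi A, hA.snd_image ▸ ⟨hA.lo_lt_hi.le, le_rfl⟩, hA.lo_neg.2.ne', div_nonneg h hA.lo_neg.2.le,
        (div_lt_one hA.lo_neg.2).2 hz.2⟩
    · exact ⟨lo A, hA.snd_image ▸ ⟨le_rfl, hA.lo_lt_hi.le⟩, hA.lo_neg.1.ne,
        div_nonneg_of_nonpos h.le hA.lo_neg.1.le, (div_lt_one_of_neg hA.lo_neg.1).2 hz.1⟩
  obtain ⟨⟨y, e⟩, hy, rfl⟩ := he
  simp only at hθ0 hθ1 he0
  set θ := z / e
  have hθe : θ * e = z := div_mul_cancel₀ z he0
  have hsub : (1 - θ) • slice A 0 + {θ • y} ⊆ slice A z := by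
    refine Subset.trans ?_ (hθe ▸ (show (1 - θ) * 0 + θ * e = θ * e by ring) ▸
      hA.slice_combo (sub_nonneg.2 hθ1.le) hθ0 (by ring) 0 e)
    exact Set.add_subset_add_left (singleton_subset_iff.2 (smul_mem_smul_set hy))
  refine ENNReal.toReal_pos (ne_of_gt ?_) (hA.isCompact_slice z).measure_lt_top.ne
  refine lt_of_lt_of_le ?_ (measure_mono hsub)
  rw [add_singleton, image_add_right, measure_preimage_add_right, Measure.addHaar_smul]
  exact ENNReal.mul_pos (ENNReal.ofReal_pos.2 (abs_pos.2 (pow_ne_zero _ (sub_ne_zero.2 hθ1.ne')))).ne'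
    hvol.ne'

theorem rad_slice_pos (hA : Solid A) {z : ℝ} (hz : z ∈ Ioo (lo A) (hi A)) :
    0 < rad (slice A z) :=
  Real.rpow_pos_of_pos (hA.slice_pos hz) _

theorem sliceVol_eq (A : Set (Pt (k + 1) × ℝ)) (z : ℝ) : sliceVol A z = rad (slice A z) ^ (k + 1) :=
  (rad_pow _).symm

theorem concave_rad (hA : Solid A) :
    ConcaveOn ℝ (Ioo (lo A) (hi A)) fun z => rad (slice A z) := by
  refine ⟨convex_Ioo _ _, fun z hz w hw a b ha hb hab => ?_⟩
  simp only [smul_eq_mul]
  rcases ha.eq_or_lt with rfl | ha'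
  · simp [show b = 1 by linarith]
  rcases hb.eq_or_lt with rfl | hb'
  · simp [show a = 1 by linarith]
  rw [← rad_smul (slice A z) ha, ← rad_smul (slice A w) hb]
  refine (rad_add_le ((hA.isCompact_slice z).smul a) ((hA.isCompact_slice w).smul b)
    (by rw [rad_smul _ ha]; exact mul_pos ha' (hA.rad_slice_pos hz))
    (by rw [rad_smul _ hb]; exact mul_pos hb' (hA.rad_slice_pos hw))).trans ?_
  refine Real.rpow_le_rpow ENNReal.toReal_nonneg
    (ENNReal.toReal_mono (hA.isCompact_slice _).measure_lt_top.ne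
      (measure_mono (hA.slice_combo ha hb hab z w))) (by positivity)

theorem continuousOn_rad (hA : Solid A) :
    ContinuousOn (fun z => rad (slice A z)) (Ioo (lo A) (hi A)) :=
  hA.concave_rad.continuousOn isOpen_Ioo

theorem continuousAt_sliceVol (hA : Solid A) {z : ℝ} (hz : z ∈ Ioo (lo A) (hi A)) :
    ContinuousAt (sliceVol A) z := by
  rw [show sliceVol A = fun z => rad (slice A z) ^ (k + 1) from funext (sliceVol_eq A)]
  exact (hA.continuousOn_rad.continuousAt (Ioo_mem_nhds hz.1 hz.2)).pow _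

theorem measurable_sliceVol (hA : Solid A) : Measurable (sliceVol A) :=
  (measurable_measure_prodMk_right (μ := (volume : Measure (Pt (k + 1))))
    hA.compact.measurableSet).ennreal_toReal

theorem sliceVol_eq_zero (hA : Solid A) {z : ℝ} (hz : z ∉ Icc (lo A) (hi A)) :
    sliceVol A z = 0 := by
  have : slice A z = ∅ := eq_empty_of_forall_notMem fun x hx => hz (hA.mem_Icc hx)
  simp [sliceVol, this]

theorem integrable_indicator (hA : Solid A) {φ : Pt (k + 1) × ℝ → ℝ} (hφ : Continuous φ) :
    Integrable (A.indicator φ) ((volume : Measure (Pt (k + 1))).prod (volume : Measure ℝ)) :=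
  (integrable_indicator_iff hA.compact.measurableSet).2
    (hφ.continuousOn.integrableOn_compact hA.compact)

theorem integral_height (hA : Solid A) {φ : ℝ → ℝ} (hφ : Continuous φ) :
    Integrable (fun z => φ z * sliceVol A z) ∧
      ∫ p in A, φ p.2 = ∫ z, φ z * sliceVol A z := by
  have hint := hA.integrable_indicator (hφ.comp continuous_snd)
  have e : ∀ z, ∫ x, A.indicator (φ ∘ Prod.snd) (x, z) = φ z * sliceVol A z := by
    intro z
    have : (fun x => A.indicator (φ ∘ Prod.snd) (x, z)) = (slice A z).indicator fun _ => φ z := by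
      funext x
      rfl
    rw [this, integral_indicator (hA.isCompact_slice z).measurableSet, setIntegral_const,
      smul_eq_mul, mul_comm]
    rfl
  refine ⟨(hint.integral_prod_right).congr (Eventually.of_forall e), ?_⟩
  rw [← integral_indicator hA.compact.measurableSet, Measure.volume_eq_prod]
  exact (integral_prod_symm _ hint).trans (integral_congr_ae (Eventually.of_forall e))

theorem integrable_sliceVol (hA : Solid A) : Integrable (sliceVol A) := by
  simpa using (hA.integral_height (φ := fun _ => 1) continuous_const).1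

theorem integral_sliceVol (hA : Solid A) : ∫ z, sliceVol A z = (volume A).toReal := by
  have h := (hA.integral_height (φ := fun _ => 1) continuous_const).2
  simp only [setIntegral_const, smul_eq_mul, mul_one, one_mul] at h
  exact h.symm

theorem below_lo (A : Set (Pt (k + 1) × ℝ)) : below A (lo A) = 0 := intervalIntegral.integral_same

theorem below_hi (hA : Solid A) : below A (hi A) = (volume A).toReal := by
  rw [below, intervalIntegral.integral_of_le hA.lo_lt_hi.le, ← integral_Icc_eq_integral_Ioc,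
    ← hA.integral_sliceVol]
  exact setIntegral_eq_integral_of_forall_compl_eq_zero fun z hz => hA.sliceVol_eq_zero hz

theorem continuous_below (hA : Solid A) : Continuous (below A) :=
  hA.integrable_sliceVol.continuous_primitive (lo A)

theorem hasDerivAt_below (hA : Solid A) {z : ℝ} (hz : z ∈ Ioo (lo A) (hi A)) :
    HasDerivAt (below A) (sliceVol A z) z :=
  intervalIntegral.integral_hasDerivAt_right hA.integrable_sliceVol.intervalIntegrable
    hA.measurable_sliceVol.stronglyMeasurable.stronglyMeasurableAtFilter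
    (hA.continuousAt_sliceVol hz)

theorem strictMonoOn_below (hA : Solid A) : StrictMonoOn (below A) (Icc (lo A) (hi A)) := by
  refine strictMonoOn_of_deriv_pos (convex_Icc _ _) hA.continuous_below.continuousOn fun z hz => ?_
  rw [interior_Icc] at hz
  rw [(hA.hasDerivAt_below hz).deriv]
  exact hA.slice_pos hz

theorem below_mem (hA : Solid A) {z : ℝ} (hz : z ∈ Ioo (lo A) (hi A)) :
    below A z ∈ Ioo 0 (volume A).toReal := by
  rw [← below_lo A, ← hA.below_hi]
  exact ⟨hA.strictMonoOn_below ⟨le_rfl, hA.lo_lt_hi.le⟩ (Ioo_subset_Icc_self hz) hz.1,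
    hA.strictMonoOn_below (Ioo_subset_Icc_self hz) ⟨hA.lo_lt_hi.le, le_rfl⟩ hz.2⟩

theorem exists_below_eq (hA : Solid A) {s : ℝ} (hs : s ∈ Ioo 0 (volume A).toReal) :
    ∃ z ∈ Ioo (lo A) (hi A), below A z = s := by
  rw [← below_lo A, ← hA.below_hi] at hs
  exact intermediate_value_Ioo hA.lo_lt_hi.le hA.continuous_below.continuousOn hs

end Solid

end Vale.Agent.P237.Full
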