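import Vale.Agent.P237.Full.Mixed

/-!
# P237: slices of a body in three-space
-/

namespace Vale.Agent.P237.Full

open MeasureTheory Set Function

/-- The axis of slicing. -/
def axis : Pt 3 := Pi.single 2 1

/-- The horizontal slice at height `t`. -/
def slice (K : Set (Pt 3)) (t : ℝ) : Set (Pt 2) := {y | (Fin.snoc y t : Pt 3) ∈ K}

/-- The area of a slice. -/
noncomputable def sliceArea (K : Set (Pt 3)) (t : ℝ) : ℝ := (volume (slice K t)).toReal

/-- The Euclidean unit ball in coordinates. -/
def ball3 : Set (Pt 3) := {x | x ⬝ᵥ x ≤ 1}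

end Vale.Agent.P237.Full
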