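import Vale.Agent.P237.Full.Slices
import Vale.Agent.P237.Full.Defs3
import Vale.Agent.P237.Class

/-!
# P237: the shadow of the projection body along the axis, bounded by the slices
-/

namespace Vale.Agent.P237.Full

open MeasureTheory Set Function Topology Filter
open scoped ENNReal NNReal Pointwise

theorem gain_slices {A : Set (Pt 2 × ℝ)} (hA : IsCompact A) (v : Pt 2) :
    Integrable (fun t => gain (P237.slice A t) v) ∧
      gain A (v, 0) = ∫ t, gain (P237.slice A t) v := by
  have hS : IsCompact (swept A ((v, 0) : Pt 2 × ℝ)) := isCompact_swept hA _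
  have hfub : ∀ {S : Set (Pt 2 × ℝ)}, IsCompact S →
      Integrable (fun t => (volume (P237.slice S t)).toReal) ∧
        ∫ t, (volume (P237.slice S t)).toReal = (volume S).toReal := by
    intro S hS
    have hm : Measurable fun t => volume (P237.slice S t) :=
      measurable_measure_prodMk_right (μ := (volume : Measure (Pt 2))) hS.measurableSet
    have hne : ∫⁻ t, volume (P237.slice S t) ≠ ⊤ := by
      rw [← volume_eq_lintegral_slice hS.measurableSet]; exact hS.measure_lt_top.ne
    refine ⟨integrable_toReal_of_lintegral_ne_top hm.aemeasurable hne, ?_⟩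
    rw [integral_toReal hm.aemeasurable (ae_lt_top hm hne),
      ← volume_eq_lintegral_slice hS.measurableSet]
  have e : ∀ t, P237.slice (swept A ((v, 0) : Pt 2 × ℝ)) t = swept (P237.slice A t) v := by
    intro t
    ext y
    constructor
    · rintro ⟨⟨⟨x, s⟩, τ⟩, ⟨hx, hτ⟩, he⟩
      simp only [Prod.smul_mk, smul_zero, Prod.mk_add_mk, add_zero, Prod.mk.injEq] at he
      obtain ⟨rfl, rfl⟩ := he
      exact ⟨(x, τ), ⟨hx, hτ⟩, rfl⟩
    · rintro ⟨⟨x, τ⟩, ⟨hx, hτ⟩, rfl⟩
      exact ⟨((x, t), τ), ⟨hx, hτ⟩, by simp⟩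
  obtain ⟨i1, h1⟩ := hfub hS
  obtain ⟨i2, h2⟩ := hfub hA
  simp only [e] at i1 h1
  exact ⟨i1.sub i2, by rw [gain, ← h1, ← h2, ← integral_sub i1 i2]; rfl⟩

/-- In the plane the projection body has four times the area at least. -/
theorem four_le_gainBody {L : Set (Pt 2)} (hL : Cvx L) :
    2 * rad L ≤ rad (gainBody L) := by
  set J : Pt 2 →ₗ[ℝ] Pt 2 := Matrix.toLin' !![0, -1; 1, 0]
  have hdet : |LinearMap.det J| = 1 := by simp [J, LinearMap.det_toLin', Matrix.det_fin_two]
  have hneg : IsCompact (-L) := hL.compact.neg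
  have hnr : rad (-L) = rad L := by rw [rad, rad, Measure.measure_neg]
  have hsub : J '' (L + -L) ⊆ gainBody L := by
    rintro _ ⟨_, ⟨a, ha, b, hb, rfl⟩, rfl⟩ u
    have h := det_le_gain hL.compact hL.convex ha (Set.mem_neg.1 hb) u
    refine le_trans (le_of_eq ?_) ((le_abs_self _).trans h)
    simp [J, dotProduct, Fin.sum_univ_two]
    ring
  have hJ : rad (J '' (L + -L)) = rad (L + -L) := by
    rw [rad, rad, Measure.addHaar_image_linearMap, hdet, ENNReal.ofReal_one, one_mul]
  have h := rad_add_le hL.compact hneg (rad_pos hL) (hnr.symm ▸ rad_pos hL)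
  rw [hnr] at h
  have hmono : rad (J '' (L + -L)) ≤ rad (gainBody L) :=
    Real.rpow_le_rpow ENNReal.toReal_nonneg (ENNReal.toReal_mono
      hL.cvx_gainBody.compact.measure_lt_top.ne (measure_mono hsub)) (by positivity)
  linarith

/-- A translate of an inner slice has the origin inside. -/
theorem exists_centred_slice {A : Set (Pt 2 × ℝ)} (hA : Solid A) {t : ℝ}
    (ht : t ∈ Ioo (lo A) (hi A)) :
    ∃ L : Set (Pt 2), Cvx L ∧ (∀ u, gain L u = gain (P237.slice A t) u) ∧
      rad L = √(sliceVol A t) := by
  have hc : Convex ℝ (P237.slice A t) := fun x hx y hy a b ha hb hab => by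
    have h := hA.convex hx hy ha hb hab
    show (a • x + b • y, t) ∈ A
    rwa [Prod.smul_mk, Prod.smul_mk, Prod.mk_add_mk, ← add_smul, hab, one_smul] at h
  have hne : (interior (P237.slice A t)).Nonempty := by
    by_contra h
    have h0 := (hc.addHaar_frontier (μ := (volume : Measure (Pt 2))))
    rw [frontier, (hA.isCompact_slice t).isClosed.closure_eq,
      not_nonempty_iff_eq_empty.1 h, sdiff_empty] at h0
    have := hA.slice_pos ht
    simp [sliceVol, h0] at this
  obtain ⟨x, hx⟩ := hne
  refine ⟨(fun y => y + -x) '' P237.slice A t, ⟨(hA.isCompact_slice t).image (by fun_prop),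
    by simpa [add_comm] using hc.translate (-x), ?_⟩, fun u => gain_translate _ _ u, ?_⟩
  · rw [image_add_right, neg_neg]
    exact (continuous_add_const x).continuousAt.preimage_mem_nhds
      (by simpa using mem_interior_iff_mem_nhds.1 hx)
  · rw [rad, volume_translate, Real.sqrt_eq_rpow]
    norm_num
    rfl

theorem measurable_gain_slice {A : Set (Pt 2 × ℝ)} (hA : IsCompact A) (v : Pt 2) :
    Measurable fun t => gain (P237.slice A t) v := by
  have hm : ∀ {S : Set (Pt 2 × ℝ)}, IsCompact S → Measurable fun t => (volume (P237.slice S t)).toReal :=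
    fun hS => (measurable_measure_prodMk_right (μ := (volume : Measure (Pt 2)))
      hS.measurableSet).ennreal_toReal
  have e : (fun t => gain (P237.slice A t) v) = fun t =>
      (volume (P237.slice (swept A ((v, 0) : Pt 2 × ℝ)) t)).toReal
        - (volume (P237.slice A t)).toReal := by
    funext t
    rw [gain]
    congr 3
    ext y
    constructor
    · rintro ⟨⟨x, τ⟩, ⟨hx, hτ⟩, rfl⟩
      exact ⟨((x, t), τ), ⟨hx, hτ⟩, by simp⟩
    · rintro ⟨⟨⟨x, s⟩, τ⟩, ⟨hx, hτ⟩, he⟩
      simp only [Prod.smul_mk, smul_zero, Prod.mk_add_mk, add_zero, Prod.mk.injEq] at he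
      obtain ⟨rfl, rfl⟩ := he
      exact ⟨(x, τ), ⟨hx, hτ⟩, rfl⟩
  rw [e]
  exact (hm (isCompact_swept hA _)).sub (hm hA)

theorem measurable_uncurry_slice {φ : ℝ → Pt 2 → ℝ} (hc : ∀ t, Continuous (φ t))
    (hm : ∀ v, Measurable fun t => φ t v) : Measurable (uncurry φ) :=
  (measurable_uncurry_of_continuous_of_measurable (ι := Pt 2) (α := ℝ) (β := ℝ)
    (u := fun v t => φ t v) hc hm).comp measurable_swap

/-- A shadow whose support values are the integrals of the slice gains has at least the radius
`2 * ∫ √A`. -/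
theorem shadow_ge {A : Set (Pt 2 × ℝ)} (hA : Solid A) {W : Set (Pt 2)} (hW : Cvx W)
    (hsupp : ∀ v : Pt 2, P227.Zono.supportVal W v = ∫ t, gain (P237.slice A t) v) :
    2 * ∫ t, √(sliceVol A t) ≤ rad W := by
  set I := Ioo (lo A) (hi A)
  have hcvx : ∀ t ∈ I, ∃ L : Set (Pt 2), Cvx L ∧ (∀ u, gain L u = gain (P237.slice A t) u) ∧
      rad L = √(sliceVol A t) := fun t ht => exists_centred_slice hA ht
  obtain ⟨C, hC0, hC⟩ := hW.exists_normal_bound
  set φ : ℝ → Pt 2 → ℝ := fun t v => I.indicator (fun t => gain (P237.slice A t) v) t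
  have hφc : ∀ t, Continuous (φ t) := fun t => by
    by_cases ht : t ∈ I
    · obtain ⟨L, hL, hg, -⟩ := hcvx t ht
      refine (hL.continuous_gain).congr fun v => ?_
      simp [φ, indicator_of_mem ht, hg]
    · simp [φ, indicator_of_notMem ht, continuous_const]
  have hφm : ∀ v, Measurable fun t => φ t v := fun v => by
    refine Measurable.indicator ?_ measurableSet_Ioo
    exact measurable_gain_slice hA.compact v
  have hjoint : Measurable (uncurry φ) := by
    exact measurable_uncurry_slice hφc hφm
  set F : Pt 2 → ℝ → ℝ := fun x t => φ t (P227.Zono.normalAt W x)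
  set P := Prod.fst '' A
  set M := (volume (P + Metric.closedBall (0 : Pt 2) C)).toReal
  have hcomp : IsCompact (P + Metric.closedBall (0 : Pt 2) C) :=
    (hA.compact.image continuous_fst).add (isCompact_closedBall _ _)
  have hbound : ∀ x t, ‖F x t‖ ≤ M := fun x t => by
    by_cases ht : t ∈ I
    · simp only [F, φ, indicator_of_mem ht, Real.norm_eq_abs]
      rw [abs_of_nonneg (gain_nonneg (hA.isCompact_slice t) _), gain]
      refine le_trans (sub_le_self _ ENNReal.toReal_nonneg) (ENNReal.toReal_mono
        hcomp.measure_lt_top.ne (measure_mono ?_))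
      rintro _ ⟨⟨y, τ⟩, ⟨hy, hτ⟩, rfl⟩
      refine ⟨y, ⟨(y, t), hy, rfl⟩, τ • P227.Zono.normalAt W x, ?_, rfl⟩
      rw [mem_closedBall_zero_iff, norm_smul, Real.norm_eq_abs, abs_of_nonneg hτ.1]
      exact (mul_le_of_le_one_left (norm_nonneg _) hτ.2).trans (hC x)
    · simp [F, φ, indicator_of_notMem ht, M, ENNReal.toReal_nonneg]
  have hint : Integrable (uncurry F) ((volume.restrict W).prod (volume.restrict I)) := by
    have : IsFiniteMeasure (volume.restrict W) :=
      isFiniteMeasure_restrict.2 hW.compact.measure_lt_top.ne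
    have : IsFiniteMeasure (volume.restrict I) := isFiniteMeasure_restrict.2 measure_Ioo_lt_top.ne
    refine Integrable.of_bound ?_ M (Eventually.of_forall fun p => hbound p.1 p.2)
    exact (hjoint.comp (measurable_snd.prodMk
      ((P227.Zono.measurable_normalAt W).comp measurable_fst))).aestronglyMeasurable
  have hsuppI : ∀ v : Pt 2, P227.Zono.supportVal W v = ∫ t in I, φ t v := by
    intro v
    rw [hsupp, setIntegral_congr_fun measurableSet_Ioo fun t ht => indicator_of_mem ht _,
      ← integral_Icc_eq_integral_Ioo]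
    refine (setIntegral_eq_integral_of_forall_compl_eq_zero fun t ht => ?_).symm
    have : P237.slice A t = ∅ := eq_empty_of_forall_notMem fun x hx => ht (hA.mem_Icc hx)
    simp [gain, swept, this]
  have key : rad W * (2 * ∫ t, √(sliceVol A t)) ≤ rad W ^ 2 := by
    rw [rad_pow (m := 1) W, ← mixedVol_self hW, mixedVol]
    simp only [hsuppI]
    rw [integral_integral_swap hint, ← integral_const_mul, ← integral_const_mul]
    rw [show ∫ t, rad W * (2 * √(sliceVol A t)) = ∫ t in I, rad W * (2 * √(sliceVol A t)) from ?_]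
    · have hM : Integrable (fun t => ∫ x, F x t ∂(volume.restrict W)) (volume.restrict I) :=
        hint.integral_prod_right
      refine setIntegral_mono_on ?_ hM measurableSet_Ioo fun t ht => ?_
      · refine Measure.integrableOn_of_bounded (M := rad W * (2 * √M)) measure_Ioo_lt_top.ne
          ((hA.measurable_sliceVol.sqrt.const_mul 2).const_mul (rad W)).aestronglyMeasurable
          (Eventually.of_forall fun t => ?_)
        rw [Real.norm_eq_abs, abs_of_nonneg (mul_nonneg (rad_nonneg _) (by positivity))]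
        refine mul_le_mul_of_nonneg_left (mul_le_mul_of_nonneg_left (Real.sqrt_le_sqrt ?_)
          two_pos.le) (rad_nonneg _)
        refine ENNReal.toReal_mono hcomp.measure_lt_top.ne (measure_mono fun y hy => ?_)
        exact ⟨y, ⟨(y, t), hy, rfl⟩, 0, by simpa using hC0, add_zero y⟩
      · obtain ⟨L, hL, hg, hr⟩ := hcvx t ht
        have h := minkowski hW hL.cvx_gainBody hL.zd_gainBody
        rw [pow_one] at h
        have e : ∫ x in W, F x t = mixedVol W (gainBody L) := by
          refine setIntegral_congr_fun hW.compact.measurableSet fun x _ => ?_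
          simp [F, φ, indicator_of_mem ht, hL.supportVal_gainBody, hg]
        show _ ≤ ∫ x in W, F x t
        rw [e]
        refine le_trans (mul_le_mul_of_nonneg_left ?_ (rad_nonneg W)) h
        rw [← hr]
        exact four_le_gainBody hL
    · rw [← integral_Icc_eq_integral_Ioo]
      refine (setIntegral_eq_integral_of_forall_compl_eq_zero fun t ht => ?_).symm
      simp [hA.sliceVol_eq_zero ht]
  exact le_of_mul_le_mul_left (by linarith [key, sq (rad W)]) (rad_pos hW)

theorem gain_gainBody_axis {K : Set (Pt 3)} (hK : Cvx K) :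
    4 * (∫ t : ℝ, √(sliceArea K t)) ^ 2 ≤ gain (gainBody K) axis := by
  set Sc := (snocLin 2).toContinuousLinearEquiv
  set A : Set (Pt 2 × ℝ) := snocLin 2 ⁻¹' K
  have hsymm : (snocLin 2).symm '' K = A := (snocLin 2).symm.image_eq_preimage_symm K
  have hA : Solid A := ⟨hsymm ▸ hK.compact.image (snocLin 2).symm.toLinearMap.continuous_of_finiteDimensional,
    hK.convex.linear_preimage (snocLin 2).toLinearMap,
    Sc.continuous.continuousAt.preimage_mem_nhds (by simpa using hK.nhds)⟩
  have hG := hK.cvx_gainBody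
  set G' : Set (Pt 2 × ℝ) := snocLin 2 ⁻¹' gainBody K
  have hsymm' : (snocLin 2).symm '' gainBody K = G' := (snocLin 2).symm.image_eq_preimage_symm _
  have hG' : IsCompact G' :=
    hsymm' ▸ hG.compact.image (snocLin 2).symm.toLinearMap.continuous_of_finiteDimensional
  have hG'c : Convex ℝ G' := hG.convex.linear_preimage (snocLin 2).toLinearMap
  set W := Prod.fst '' G'
  have hW : Cvx W := ⟨hG'.image continuous_fst, hG'c.linear_image (LinearMap.fst ℝ _ ℝ), by
    simpa using isOpenMap_fst.image_mem_nhds
      (show G' ∈ 𝓝 (0 : Pt 2 × ℝ) from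
        Sc.continuous.continuousAt.preimage_mem_nhds (by simpa using hG.nhds))⟩
  have himg : ∀ S : Set (Pt 3), snocLin 2 '' (snocLin 2 ⁻¹' S) = S := fun S =>
    image_preimage_eq _ (snocLin 2).surjective
  have hvolS : ∀ S : Set (Pt 2 × ℝ), (volume (snocLin 2 '' S)).toReal = 1 * (volume S).toReal :=
    fun S => by rw [volume_image_snocLin, one_mul]
  have haxis : snocLin 2 ((0 : Pt 2), (1 : ℝ)) = axis := by
    funext i
    fin_cases i <;> simp [axis, snocLin_apply, Fin.snoc]
  have hgainW : gain (gainBody K) axis = rad W ^ 2 := by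
    rw [← himg (gainBody K), ← haxis, gain_image (snocLin 2) hvolS,
      gain_vertical hG' hG'c zero_le_one, one_mul, one_mul]
    exact (rad_pow (m := 1) W).symm
  -- support values of the shadow
  have hsupp : ∀ v : Pt 2, P227.Zono.supportVal W v = ∫ t, gain (P237.slice A t) v := by
    intro v
    rw [← (gain_slices hA.compact v).2, ← one_mul (gain A (v, 0)), ← gain_image (snocLin 2) hvolS,
      himg, ← hK.supportVal_gainBody, P227.Zono.supportVal, P227.Zono.supportVal,
      ← image_comp]
    conv_rhs => rw [← himg (gainBody K), ← image_comp]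
    congr 1
    refine image_congr fun p _ => ?_
    simp only [Function.comp_apply, snocLin_apply, dotProduct]
    rw [Fin.sum_univ_castSucc (n := 2)]
    simp only [Fin.snoc_castSucc, Fin.snoc_last, zero_mul, add_zero]
  have h2 : 2 * ∫ t, √(sliceArea K t) ≤ rad W := shadow_ge hA hW hsupp
  rw [hgainW]
  have hnn : 0 ≤ ∫ t, √(sliceArea K t) := integral_nonneg fun t => Real.sqrt_nonneg _
  nlinarith

end Vale.Agent.P237.Full
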