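import Vale.Agent.P237.Full.Gauge
import Vale.Agent.P227.Zono.Support

/-!
# P237: support functions, the projection body as a body, and its approximation by zonotopes
-/

namespace Vale.Agent.P237.Full

open MeasureTheory Set Function Topology Filter
open scoped ENNReal NNReal Pointwise

variable {m k : ℕ}

/-- A compact convex set with the origin inside. -/
structure Cvx (K : Set (Pt k)) : Prop where
  compact : IsCompact K
  convex : Convex ℝ K
  nhds : K ∈ 𝓝 (0 : Pt k)

theorem Cvx.of_body {K : Set (Pt k)} (h : P227.Zono.Body K) : Cvx K :=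
  ⟨h.compact, h.convex, h.nhds⟩

theorem Cvx.zero_mem {K : Set (Pt k)} (hK : Cvx K) : (0 : Pt k) ∈ K := mem_of_mem_nhds hK.nhds

theorem Cvx.nonempty {K : Set (Pt k)} (hK : Cvx K) : K.Nonempty := ⟨0, hK.zero_mem⟩

theorem Cvx.volume_pos {K : Set (Pt k)} (hK : Cvx K) : 0 < (volume K).toReal :=
  ENNReal.toReal_pos (ne_of_gt ((isOpen_interior.measure_pos volume
    ⟨0, mem_interior_iff_mem_nhds.2 hK.nhds⟩).trans_le (measure_mono interior_subset)))
    hK.compact.measure_lt_top.ne

theorem continuous_dot (u : Pt k) : Continuous fun x : Pt k => u ⬝ᵥ x :=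
  continuous_finsetSum _ fun i _ => continuous_const.mul (continuous_apply i)

/-- The linear form of a vector. -/
noncomputable def dotCLM (u : Pt k) : Pt k →L[ℝ] ℝ := LinearMap.toContinuousLinearMap
  { toFun := fun z => u ⬝ᵥ z
    map_add' := dotProduct_add u
    map_smul' := fun c z => dotProduct_smul c u z }

theorem exists_dot (f : Pt k →ₗ[ℝ] ℝ) : ∃ w : Pt k, ∀ z, f z = w ⬝ᵥ z := by
  refine ⟨fun i => f (Pi.single i 1), fun z => ?_⟩
  conv_lhs => rw [pi_eq_sum_univ' z, map_sum]
  refine Finset.sum_congr rfl fun j _ => ?_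
  rw [map_smul, smul_eq_mul, mul_comm]

open P227.Zono in
theorem le_supportVal {G : Set (Pt k)} (hG : IsCompact G) {x : Pt k} (hx : x ∈ G) (u : Pt k) :
    u ⬝ᵥ x ≤ supportVal G u :=
  le_csSup (hG.image (continuous_dot u)).bddAbove ⟨x, hx, rfl⟩

open P227.Zono in
theorem exists_supportVal {G : Set (Pt k)} (hG : IsCompact G) (hne : G.Nonempty) (u : Pt k) :
    ∃ x ∈ G, u ⬝ᵥ x = supportVal G u :=
  (hG.image (continuous_dot u)).sSup_mem (hne.image _)

open P227.Zono in
theorem continuous_supportVal {G : Set (Pt k)} (hG : IsCompact G) :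
    Continuous (supportVal G) :=
  hG.continuous_sSup (f := fun u x => u ⬝ᵥ x)
    (show Continuous fun p : Pt k × Pt k => ∑ i, p.1 i * p.2 i from
      continuous_finsetSum _ fun i _ => by fun_prop)

open P227.Zono in
theorem supportVal_nonneg {G : Set (Pt k)} (hG : IsCompact G) (h0 : (0 : Pt k) ∈ G) (u : Pt k) :
    0 ≤ supportVal G u := by simpa using le_supportVal hG h0 u

open P227.Zono in
/-- A point within `r` times the support values lies in the dilate. -/
theorem mem_smul_of_dot_le {G : Set (Pt k)} (hG : IsCompact G) (hGc : Convex ℝ G)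
    (hne : G.Nonempty) {r : ℝ} {z : Pt k}
    (h : ∀ u, u ⬝ᵥ z ≤ r * supportVal G u) : z ∈ r • G := by
  by_contra hz
  obtain ⟨f, c, hlt, hc⟩ :=
    geometric_hahn_banach_closed_point (hGc.smul r) (hG.smul r).isClosed hz
  obtain ⟨w, hw⟩ := exists_dot (f : Pt k →ₗ[ℝ] ℝ)
  obtain ⟨x, hx, he⟩ := exists_supportVal hG hne w
  have h1 := hlt (r • x) (smul_mem_smul_set hx)
  have e1 : f (r • x) = r * supportVal G w := by
    rw [← he, show f (r • x) = w ⬝ᵥ (r • x) from hw _, dotProduct_smul, smul_eq_mul]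
  have e2 : f z = w ⬝ᵥ z := hw z
  linarith [h w]

variable {K L : Set (Pt (m + 1))}

theorem Cvx.gauge_le_one (hK : Cvx K) {x : Pt (m + 1)} : gauge K x ≤ 1 ↔ x ∈ K := by
  rw [gauge_le_one_iff_mem_closure hK.convex hK.nhds, hK.compact.isClosed.closure_eq]

theorem Cvx.exists_normal_bound (hK : Cvx K) :
    ∃ C : ℝ, 0 ≤ C ∧ ∀ x, ‖P227.Zono.normalAt K x‖ ≤ C := by
  obtain ⟨C, hC⟩ := hK.convex.lipschitz_gauge hK.nhds
  refine ⟨C, C.coe_nonneg, fun x => (pi_norm_le_iff_of_nonneg C.coe_nonneg).2 fun j => ?_⟩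
  show ‖fderiv ℝ (gauge K) x (Pi.single j 1)‖ ≤ _
  refine (ContinuousLinearMap.le_opNorm _ _).trans ?_
  rw [Pi.norm_single, norm_one, mul_one]
  exact norm_fderiv_le_of_lipschitz ℝ hC

theorem Cvx.integrableOn_comp (hK : Cvx K) {φ : Pt (m + 1) → ℝ} (hφ : Continuous φ) :
    IntegrableOn (fun x => φ (P227.Zono.normalAt K x)) K := by
  obtain ⟨C, -, hC⟩ := hK.exists_normal_bound
  obtain ⟨M, hM⟩ := (isCompact_closedBall (0 : Pt (m + 1)) C).exists_bound_of_continuousOn
    hφ.continuousOn
  exact Measure.integrableOn_of_bounded hK.compact.measure_lt_top.ne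
    (hφ.measurable.comp (P227.Zono.measurable_normalAt K)).aestronglyMeasurable
    (Eventually.of_forall fun x => hM _ (mem_closedBall_zero_iff.2 (hC x)))

/-- The support value in the direction of the gauge's gradient is one. -/
theorem Cvx.supportVal_normal (hK : Cvx K) :
    ∀ᵐ x : Pt (m + 1), P227.Zono.supportVal K (P227.Zono.normalAt K x) = 1 := by
  obtain ⟨C, hC⟩ := hK.convex.lipschitz_gauge hK.nhds
  filter_upwards [hC.ae_differentiableAt, Measure.ae_ne volume (0 : Pt (m + 1))] with x hd hx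
  set g := gauge K
  have hpos : 0 < g x := (gauge_pos (absorbent_nhds_zero hK.nhds)
    (NormedSpace.isVonNBounded_iff _ |>.2 hK.compact.isBounded)).2 hx
  have hle : ∀ z, P227.Zono.normalAt K x ⬝ᵥ z ≤ g z := by
    intro z
    rw [P227.Zono.normalAt_dot]
    refine le_of_tendsto (hd.hasFDerivAt.hasLineDerivAt z).tendsto_slope_zero_right ?_
    filter_upwards [self_mem_nhdsWithin] with t (ht : 0 < t)
    rw [smul_eq_mul, inv_mul_le_iff₀ ht, sub_le_iff_le_add, add_comm (t * g z)]
    refine (gauge_add_le hK.convex (absorbent_nhds_zero hK.nhds) _ _).trans (le_of_eq ?_)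
    rw [gauge_smul_of_nonneg ht.le, smul_eq_mul]
  have hself : P227.Zono.normalAt K x ⬝ᵥ x = g x := by
    rw [P227.Zono.normalAt_dot]
    have h2 : HasDerivAt (fun t : ℝ => g (x + t • x)) (g x) 0 := by
      have h : HasDerivAt (fun t : ℝ => (1 + t) * g x) (g x) 0 := by
        simpa using ((hasDerivAt_id (0 : ℝ)).const_add 1).mul_const (g x)
      refine h.congr_of_eventuallyEq ?_
      filter_upwards [Ioi_mem_nhds (show (-1 : ℝ) < 0 by norm_num)] with t (ht : -1 < t)
      rw [show x + t • x = (1 + t) • x by rw [add_smul, one_smul],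
        show g ((1 + t) • x) = (1 + t) * g x from gauge_smul_of_nonneg (by linarith) x]
    exact (hd.hasFDerivAt.hasLineDerivAt x).unique h2
  obtain ⟨y, hy, he⟩ := exists_supportVal hK.compact hK.nonempty (P227.Zono.normalAt K x)
  refine le_antisymm (he ▸ (hle y).trans (hK.gauge_le_one.2 hy)) ?_
  have hmem : (g x)⁻¹ • x ∈ K := by
    rw [← hK.gauge_le_one, gauge_smul_of_nonneg (inv_nonneg.2 hpos.le), smul_eq_mul,
      inv_mul_cancel₀ hpos.ne']
  refine le_trans (le_of_eq ?_) (le_supportVal hK.compact hmem _)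
  rw [dotProduct_smul, hself, smul_eq_mul, inv_mul_cancel₀ hpos.ne']

theorem Cvx.gain_eq (hK : Cvx K) (u : Pt (m + 1)) :
    gain K u = ((m : ℝ) + 1) / 2 * ∫ x in K, |P227.Zono.normalAt K x ⬝ᵥ u| :=
  gain_eq_integral hK.compact hK.convex hK.nhds u

theorem Cvx.gain_pos (hK : Cvx K) {u : Pt (m + 1)} (hu : u ≠ 0) : 0 < gain K u := by
  obtain ⟨T, c, hc, hT1, hT⟩ := exists_vertical hu
  set A := T.symm '' K
  have hA : IsCompact A := hK.compact.image T.symm.toLinearMap.continuous_of_finiteDimensional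
  have hA0 : A ∈ 𝓝 (0 : Pt m × ℝ) := by
    rw [show A = T.toContinuousLinearEquiv ⁻¹' K from T.symm.image_eq_preimage_symm K]
    exact T.toContinuousLinearEquiv.continuous.continuousAt.preimage_mem_nhds
      (by simpa using hK.nhds)
  have hTA : T '' A = K := by simp [A, image_image]
  rw [← hTA, ← hT1, gain_image T hT,
    gain_vertical hA (hK.convex.linear_image T.symm.toLinearMap) zero_le_one, one_mul]
  have hnh : Prod.fst '' A ∈ 𝓝 (0 : Pt m) := by
    have := isOpenMap_fst.image_mem_nhds hA0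
    simpa using this
  exact mul_pos hc (ENNReal.toReal_pos (ne_of_gt ((isOpen_interior.measure_pos volume
    ⟨0, mem_interior_iff_mem_nhds.2 hnh⟩).trans_le (measure_mono interior_subset)))
    (hA.image continuous_fst).measure_lt_top.ne)

theorem Cvx.gain_homog (hK : Cvx K) (u : Pt (m + 1)) {r : ℝ} (hr : 0 ≤ r) :
    gain K (r • u) = r * gain K u :=
  gain_smul hK.compact hK.convex u hr

theorem Cvx.gain_add_le (hK : Cvx K) (u v : Pt (m + 1)) :
    gain K (u + v) ≤ gain K u + gain K v := by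
  rw [hK.gain_eq, hK.gain_eq, hK.gain_eq, ← mul_add]
  have h : ∀ w : Pt (m + 1), IntegrableOn (fun x => |P227.Zono.normalAt K x ⬝ᵥ w|) K := fun w =>
    hK.integrableOn_comp (φ := fun z => |z ⬝ᵥ w|) (by
      simp only [dotProduct_comm _ w]; exact (continuous_dot w).abs)
  refine mul_le_mul_of_nonneg_left ?_ (by positivity)
  rw [← integral_add (h u) (h v)]
  refine integral_mono (h _) ((h u).add (h v)) fun x => ?_
  rw [dotProduct_add]
  exact abs_add_le _ _

theorem Cvx.continuous_gain (hK : Cvx K) : Continuous (gain K) := by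
  rw [← continuousOn_univ]
  refine ConvexOn.continuousOn isOpen_univ ⟨convex_univ, fun u _ v _ a b ha hb _ => ?_⟩
  simp only [smul_eq_mul]
  refine (hK.gain_add_le _ _).trans (le_of_eq ?_)
  rw [hK.gain_homog u ha, hK.gain_homog v hb]

theorem Cvx.exists_gain_ge (hK : Cvx K) : ∃ δ : ℝ, 0 < δ ∧ ∀ u, δ * ‖u‖ ≤ gain K u := by
  have hne : (Metric.sphere (0 : Pt (m + 1)) 1).Nonempty := NormedSpace.sphere_nonempty.2 zero_le_one
  obtain ⟨u₀, hu₀, hmin⟩ := (isCompact_sphere (0 : Pt (m + 1)) 1).exists_isMinOn hne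
    hK.continuous_gain.continuousOn
  have hu0 : u₀ ≠ 0 := fun h => by simp [h] at hu₀
  refine ⟨gain K u₀, hK.gain_pos hu0, fun u => ?_⟩
  rcases eq_or_ne u 0 with rfl | hu
  · simp [gain_zero]
  have hn := norm_pos_iff.2 hu
  have h : gain K u₀ ≤ gain K (‖u‖⁻¹ • u) := hmin (show ‖u‖⁻¹ • u ∈ Metric.sphere (0 : Pt (m + 1)) 1 by
    simp [norm_smul, hn.ne'])
  rw [hK.gain_homog u (inv_nonneg.2 hn.le), le_inv_mul_iff₀ hn] at h
  linarith

/-- The projection body is a symmetric body. -/
theorem Cvx.body_gainBody (hK : Cvx K) : P227.Zono.Body (gainBody K) where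
  compact := Metric.isCompact_of_isClosed_isBounded (isClosed_gainBody K) gainBody_bounded
  convex := fun x hx y hy a b ha hb hab u => by
    rw [add_dotProduct, smul_dotProduct, smul_dotProduct, smul_eq_mul, smul_eq_mul]
    calc a * (x ⬝ᵥ u) + b * (y ⬝ᵥ u) ≤ a * gain K u + b * gain K u :=
          add_le_add (mul_le_mul_of_nonneg_left (hx u) ha) (mul_le_mul_of_nonneg_left (hy u) hb)
      _ = gain K u := by rw [← add_mul, hab, one_mul]
  interior_nonempty := by
    obtain ⟨δ, hδ, h⟩ := hK.exists_gain_ge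
    refine ⟨0, mem_interior_iff_mem_nhds.2 (mem_of_superset
      (Metric.ball_mem_nhds 0 (show 0 < δ / (m + 1) by positivity)) fun y hy u => ?_)⟩
    rw [mem_ball_zero_iff] at hy
    refine le_trans ?_ (h u)
    calc y ⬝ᵥ u ≤ ∑ i : Fin (m + 1), ‖y‖ * ‖u‖ := Finset.sum_le_sum fun i _ =>
          (le_abs_self _).trans (by
            rw [abs_mul]
            exact mul_le_mul (norm_le_pi_norm y i) (norm_le_pi_norm u i) (abs_nonneg _)
              (norm_nonneg _))
      _ = ((m : ℝ) + 1) * ‖y‖ * ‖u‖ := by simp [mul_assoc]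
      _ ≤ δ * ‖u‖ := by
          refine mul_le_mul_of_nonneg_right ?_ (norm_nonneg _)
          rw [lt_div_iff₀ (by positivity)] at hy
          linarith
  neg_mem := fun x hx u => by
    rw [neg_dotProduct, ← dotProduct_neg, ← gain_neg K u]
    exact hx (-u)

theorem Cvx.cvx_gainBody (hK : Cvx K) : Cvx (gainBody K) := Cvx.of_body hK.body_gainBody

/-- The gain is the support function of the projection body. -/
theorem Cvx.supportVal_gainBody (hK : Cvx K) (u : Pt (m + 1)) :
    P227.Zono.supportVal (gainBody K) u = gain K u := by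
  have hc := hK.body_gainBody
  obtain ⟨x, hx, he⟩ := exists_supportVal hc.compact ⟨0, hK.cvx_gainBody.zero_mem⟩ u
  refine le_antisymm (he ▸ (dotProduct_comm u x ▸ hx u)) ?_
  rcases eq_or_ne u 0 with rfl | hu
  · simpa [gain_zero] using supportVal_nonneg hc.compact hK.cvx_gainBody.zero_mem 0
  set f : Pt (m + 1) →ₗ.[ℝ] ℝ := LinearPMap.mkSpanSingleton u (gain K u) hu
  obtain ⟨g, hg1, hg2⟩ := exists_extension_of_le_sublinear f (gain K)
    (fun c hc x => hK.gain_homog x hc.le) hK.gain_add_le (by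
      rintro ⟨z, hz⟩
      obtain ⟨c, rfl⟩ := Submodule.mem_span_singleton.1 hz
      rw [show f ⟨c • u, hz⟩ = c * gain K u from
        LinearPMap.mkSpanSingleton'_apply u (gain K u) _ c hz]
      rcases le_or_gt 0 c with hc | hc
      · rw [hK.gain_homog u hc]
      · refine le_trans ?_ (gain_nonneg hK.compact _)
        nlinarith [gain_nonneg hK.compact u])
  obtain ⟨w, hw⟩ := exists_dot g
  have hwu : w ⬝ᵥ u = gain K u := by
    rw [← hw, hg1 ⟨u, Submodule.mem_span_singleton_self u⟩]
    exact LinearPMap.mkSpanSingleton'_apply_self u (gain K u) _ _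
  rw [← hwu, dotProduct_comm w u]
  exact le_supportVal hc.compact (fun z => hw z ▸ hg2 z) u

/-- Approximation by zonotopes from outside and in the support values. -/
def Zd (G : Set (Pt k)) : Prop :=
  ∀ ε : ℝ, 0 < ε → ∃ (ι : Type) (_ : Fintype ι) (v : ι → Pt k),
    (∀ u, ∑ i, |u ⬝ᵥ v i| ≤ (1 + ε) * P227.Zono.supportVal G u) ∧
      G ⊆ (1 + ε) • P227.Zono.zonotope v

theorem sign_mem_zonotope {ι : Type*} [Fintype ι] (v : ι → Pt k) (u : Pt k) :
    ∃ z ∈ P227.Zono.zonotope v, u ⬝ᵥ z = ∑ i, |u ⬝ᵥ v i| := by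
  refine ⟨∑ i, (if 0 ≤ u ⬝ᵥ v i then (1 : ℝ) else -1) • v i,
    ⟨_, fun i => by split_ifs <;> simp, rfl⟩, ?_⟩
  rw [dotProduct_sum]
  refine Finset.sum_congr rfl fun i _ => ?_
  rw [dotProduct_smul, smul_eq_mul]
  split_ifs with h
  · rw [one_mul, abs_of_nonneg h]
  · rw [abs_of_neg (not_le.1 h)]; ring

theorem dot_le_sum_of_mem_zonotope {ι : Type*} [Fintype ι] {v : ι → Pt k} {z : Pt k}
    (hz : z ∈ P227.Zono.zonotope v) (u : Pt k) : u ⬝ᵥ z ≤ ∑ i, |u ⬝ᵥ v i| := by
  obtain ⟨t, ht, rfl⟩ := hz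
  rw [dotProduct_sum]
  refine Finset.sum_le_sum fun i _ => ?_
  rw [dotProduct_smul, smul_eq_mul]
  exact (le_abs_self _).trans (by rw [abs_mul]; exact mul_le_of_le_one_left (abs_nonneg _) (ht i))

/-- The projection body is approximated by zonotopes. -/
theorem Cvx.zd_gainBody (hK : Cvx K) : Zd (gainBody K) := by
  classical
  intro ε hε
  obtain ⟨δ, hδ, hge⟩ := hK.exists_gain_ge
  obtain ⟨C, hC0, hC⟩ := hK.exists_normal_bound
  set V := (volume K).toReal
  have hV := hK.volume_pos
  set n1 : ℝ := (m : ℝ) + 1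
  have hn1 : 0 < n1 := by positivity
  set η : ℝ := min 1 ε * δ / (n1 ^ 2 * V) with hηdef
  have hη : 0 < η := by positivity
  set lab : Pt (m + 1) → Fin (m + 1) → ℤ := fun x j => ⌊P227.Zono.normalAt K x j / η⌋
  set N : ℤ := ⌈C / η⌉ + 1
  set S : Finset (Fin (m + 1) → ℤ) := Fintype.piFinset fun _ => Finset.Icc (-N) N
  have hlm : Measurable lab := measurable_pi_lambda _ fun j =>
    Int.measurable_floor.comp (((measurable_pi_apply j).comp
      (P227.Zono.measurable_normalAt K)).div_const η)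
  set E : (Fin (m + 1) → ℤ) → Set (Pt (m + 1)) := fun y => K ∩ lab ⁻¹' {y}
  have hEm : ∀ y, MeasurableSet (E y) := fun y =>
    hK.compact.measurableSet.inter (hlm (measurableSet_singleton y))
  have hcover : ⋃ y ∈ S, E y = K := by
    refine Subset.antisymm (iUnion₂_subset fun y _ => inter_subset_left) fun x hx => ?_
    refine mem_iUnion₂.2 ⟨lab x, Fintype.mem_piFinset.2 fun j => Finset.mem_Icc.2 ?_, hx, rfl⟩
    have hj : |P227.Zono.normalAt K x j| ≤ C := (norm_le_pi_norm _ j).trans (hC x)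
    have h1 : |P227.Zono.normalAt K x j / η| ≤ (⌈C / η⌉ : ℝ) := by
      rw [abs_div, abs_of_pos hη]
      exact (div_le_div_of_nonneg_right hj hη.le).trans (Int.le_ceil _)
    rw [abs_le] at h1
    constructor
    · refine Int.le_floor.2 ?_
      push_cast [N]
      linarith [h1.1]
    · refine Int.floor_le_iff.2 ?_
      push_cast [N]
      linarith [h1.2]
  set v : {y // y ∈ S} → Pt (m + 1) := fun y j =>
    n1 / 2 * (volume (E y.1)).toReal * (η * (y.1 j : ℝ))
  have key : ∀ u, |gain K u - (∑ i, |u ⬝ᵥ v i|)| ≤ n1 / 2 * (η * n1 * ‖u‖ * V) := by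
    intro u
    have hi : IntegrableOn (fun x => |P227.Zono.normalAt K x ⬝ᵥ u|) K :=
      hK.integrableOn_comp (φ := fun z => |z ⬝ᵥ u|) (by
        simp only [dotProduct_comm _ u]; exact (continuous_dot u).abs)
    have hsum : ∑ i, |u ⬝ᵥ v i|
        = n1 / 2 * ∑ y ∈ S, (volume (E y)).toReal * |(fun j => η * (y j : ℝ)) ⬝ᵥ u| := by
      rw [← Finset.sum_coe_sort S, Finset.mul_sum]
      refine Finset.sum_congr rfl fun y _ => ?_
      rw [show v y = (n1 / 2 * (volume (E y.1)).toReal) • fun j => η * (y.1 j : ℝ) from rfl,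
        dotProduct_smul, smul_eq_mul, abs_mul, abs_of_nonneg (by positivity), dotProduct_comm u,
        mul_assoc]
    have hint : ∀ y, IntegrableOn (fun x => |P227.Zono.normalAt K x ⬝ᵥ u|) (E y) := fun y =>
      hi.mono_set inter_subset_left
    have hsplit : ∫ x in K, |P227.Zono.normalAt K x ⬝ᵥ u|
        = ∑ y ∈ S, ∫ x in E y, |P227.Zono.normalAt K x ⬝ᵥ u| := by
      rw [show ∫ x in K, |P227.Zono.normalAt K x ⬝ᵥ u|
        = ∫ x in ⋃ y ∈ S, E y, |P227.Zono.normalAt K x ⬝ᵥ u| by rw [hcover]]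
      refine integral_biUnion_finset S (fun y _ => hEm y) ?_ fun y _ => hint y
      intro y _ z _ hyz
      exact Set.disjoint_left.2 fun x hy hz => hyz (hy.2.symm.trans hz.2)
    have hfin : ∀ y, volume (E y) < ⊤ := fun y =>
      (measure_mono inter_subset_left).trans_lt hK.compact.measure_lt_top
    have hVsum : ∑ y ∈ S, (volume (E y)).toReal = V := by
      rw [← ENNReal.toReal_sum fun y _ => (hfin y).ne, ← measure_biUnion_finset ?_ fun y _ => hEm y,
        hcover]
      intro y _ z _ hyz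
      exact Set.disjoint_left.2 fun x hy hz => hyz (hy.2.symm.trans hz.2)
    rw [hK.gain_eq, hsum, hsplit, ← mul_sub, abs_mul, abs_of_nonneg (by positivity)]
    refine mul_le_mul_of_nonneg_left ?_ (by positivity)
    rw [← Finset.sum_sub_distrib, ← hVsum, Finset.mul_sum]
    refine (Finset.abs_sum_le_sum_abs _ _).trans (Finset.sum_le_sum fun y _ => ?_)
    set c := |(fun j => η * (y j : ℝ)) ⬝ᵥ u|
    have hconst : (volume (E y)).toReal * c = ∫ x in E y, c := by
      rw [setIntegral_const, smul_eq_mul]; rfl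
    rw [hconst, ← integral_sub (hint y) (integrableOn_const (hs := (hfin y).ne)), ← Real.norm_eq_abs]
    refine norm_setIntegral_le_of_norm_le_const (hfin y) fun x hx => ?_
    rw [Real.norm_eq_abs]
    refine (abs_abs_sub_abs_le_abs_sub _ _).trans ?_
    rw [← sub_dotProduct]
    refine (Finset.abs_sum_le_sum_abs _ _).trans ?_
    calc ∑ j, |(P227.Zono.normalAt K x - fun j => η * (y j : ℝ)) j * u j|
        ≤ ∑ _j : Fin (m + 1), η * ‖u‖ := Finset.sum_le_sum fun j _ => by
          rw [abs_mul, Pi.sub_apply]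
          refine mul_le_mul ?_ (norm_le_pi_norm u j) (abs_nonneg _) hη.le
          have hy : y j = ⌊P227.Zono.normalAt K x j / η⌋ := (congrFun hx.2 j).symm
          have h1 := Int.floor_le (P227.Zono.normalAt K x j / η)
          have h2 := Int.lt_floor_add_one (P227.Zono.normalAt K x j / η)
          rw [← hy] at h1 h2
          rw [le_div_iff₀ hη] at h1
          rw [div_lt_iff₀ hη] at h2
          rw [abs_le]
          constructor <;> nlinarith
      _ = η * n1 * ‖u‖ := by simp [n1]; ring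
  have hsmall : ∀ u, n1 / 2 * (η * n1 * ‖u‖ * V) ≤ min 1 ε / 2 * gain K u := by
    intro u
    have e : n1 / 2 * (η * n1 * ‖u‖ * V) = min 1 ε / 2 * (δ * ‖u‖) := by
      have hV' : V ≠ 0 := hV.ne'
      rw [hηdef]; field_simp
    rw [e]
    exact mul_le_mul_of_nonneg_left (hge u) (by positivity)
  refine ⟨{y // y ∈ S}, inferInstance, v, fun u => ?_, fun z hz => ?_⟩
  · rw [hK.supportVal_gainBody]
    have := (abs_le.1 ((key u).trans (hsmall u))).1
    have hg := gain_nonneg hK.compact u
    nlinarith [min_le_right (1 : ℝ) ε]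
  · refine mem_smul_of_dot_le (P227.Zono.zonotope_compact v) (P227.Zono.zonotope_convex v)
      ⟨0, P227.Zono.zero_mem_zonotope v⟩ fun u => ?_
    obtain ⟨w, hw, he⟩ := sign_mem_zonotope v u
    refine le_trans ?_ (mul_le_mul_of_nonneg_left (le_supportVal (P227.Zono.zonotope_compact v) hw u)
      (by linarith))
    rw [he, dotProduct_comm]
    refine (hz u).trans ?_
    have := (abs_le.1 ((key u).trans (hsmall u))).2
    have hg := gain_nonneg hK.compact u
    have h3 : 1 ≤ (1 + ε) * (1 - min 1 ε / 2) := by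
      have h1 := min_le_left (1 : ℝ) ε
      have h2 := min_le_right (1 : ℝ) ε
      nlinarith
    nlinarith

end Vale.Agent.P237.Full
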