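import Vale.Agent.P237.Full.Profile
import Vale.Agent.P237.Full.Min

/-!
# P237: the direction of largest normalised second moment

For `u` maximising `∫_K (u ⬝ x)² / h_K(u)²` the slices across `u` contain discs whose size is the
constant of the one-dimensional lemma.
-/

namespace Vale.Agent.P237.Full

open MeasureTheory Set Function Topology Filter
open scoped ENNReal NNReal Pointwise

/-- The second-moment form. -/
noncomputable def moment (K : Set (Pt 3)) (v w : Pt 3) : ℝ := ∫ x in K, (v ⬝ᵥ x) * (w ⬝ᵥ x)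

variable {K : Set (Pt 3)}

theorem integrableOn_moment (hK : P227.Zono.Body K) (v w : Pt 3) :
    IntegrableOn (fun x => (v ⬝ᵥ x) * (w ⬝ᵥ x)) K :=
  ((continuous_dot v).mul (continuous_dot w)).continuousOn.integrableOn_compact hK.compact

theorem moment_comm (K : Set (Pt 3)) (v w : Pt 3) : moment K v w = moment K w v := by
  simp only [moment, mul_comm]

theorem moment_add (hK : P227.Zono.Body K) (v v' w : Pt 3) :
    moment K (v + v') w = moment K v w + moment K v' w := by
  rw [moment, moment, moment, ← integral_add (integrableOn_moment hK v w) (integrableOn_moment hK v' w)]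
  exact integral_congr_ae (Eventually.of_forall fun x => by simp only [add_dotProduct, add_mul])

theorem moment_smul (K : Set (Pt 3)) (c : ℝ) (v w : Pt 3) :
    moment K (c • v) w = c * moment K v w := by
  rw [moment, moment, ← integral_const_mul]
  exact integral_congr_ae (Eventually.of_forall fun x => by
    simp only [smul_dotProduct, smul_eq_mul, mul_assoc])

theorem moment_add_right (hK : P227.Zono.Body K) (v w w' : Pt 3) :
    moment K v (w + w') = moment K v w + moment K v w' := by
  rw [moment_comm, moment_add hK, moment_comm K w, moment_comm K w']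

theorem moment_smul_right (K : Set (Pt 3)) (c : ℝ) (v w : Pt 3) :
    moment K v (c • w) = c * moment K v w := by
  rw [moment_comm, moment_smul, moment_comm]

theorem moment_pos (hK : P227.Zono.Body K) {v : Pt 3} (hv : v ≠ 0) : 0 < moment K v v := by
  rw [moment, setIntegral_pos_iff_support_of_nonneg_ae
    (Eventually.of_forall fun x => mul_self_nonneg _) (integrableOn_moment hK v v)]
  have hopen : IsOpen ({x | v ⬝ᵥ x ≠ 0} ∩ interior K) :=
    (isOpen_ne_fun (continuous_dot v) continuous_const).inter isOpen_interior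
  refine lt_of_lt_of_le (hopen.measure_pos volume ?_) (measure_mono fun x hx =>
    ⟨mul_ne_zero hx.1 hx.1, interior_subset hx.2⟩)
  obtain ⟨r, hr, hb⟩ := hK.exists_box
  have hn : 0 < ‖v‖ := norm_pos_iff.2 hv
  refine ⟨(r / (2 * ‖v‖)) • v, ?_, ?_⟩
  · show v ⬝ᵥ _ ≠ 0
    rw [dotProduct_smul, smul_eq_mul]
    exact mul_ne_zero (by positivity) (fun h => hv (dotProduct_self_eq_zero.1 h))
  · refine interior_mono (Metric.ball_subset_closedBall.trans hb)
      (by rw [Metric.isOpen_ball.interior_eq, mem_ball_zero_iff, norm_smul, Real.norm_eq_abs,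
            abs_of_pos (by positivity : 0 < r / (2 * ‖v‖))]
          rw [div_mul_eq_mul_div, div_lt_iff₀ (by positivity)]
          nlinarith)

theorem continuous_moment (hK : P227.Zono.Body K) : Continuous fun v => moment K v v := by
  have hm : ∀ v, moment K v v = ∑ i, ∑ j, v i * v j * ∫ x in K, x i * x j := by
    intro v
    have hij : ∀ i j : Fin 3, IntegrableOn (fun x : Pt 3 => v i * v j * (x i * x j)) K := fun i j =>
      (continuous_const.mul ((continuous_apply i).mul (continuous_apply j))).continuousOn.integrableOn_compact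
        hK.compact
    simp only [← integral_const_mul]
    rw [moment]
    conv_rhs =>
      enter [2, i]
      rw [← integral_finsetSum _ fun j _ => hij i j]
    rw [← integral_finsetSum _ fun i _ => integrable_finsetSum _ fun j _ => hij i j]
    refine integral_congr_ae (Eventually.of_forall fun x => ?_)
    simp only [dotProduct, Finset.sum_mul, Finset.mul_sum]
    exact Finset.sum_congr rfl fun i _ => Finset.sum_congr rfl fun j _ => by ring
  simp only [hm]
  fun_prop

/-- The maximiser of the normalised second moment. -/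
theorem exists_direction (hK : P227.Zono.Body K) : ∃ u : Pt 3, P227.Zono.supportVal K u = 1 ∧
    ∀ w, moment K w w ≤ moment K u u * P227.Zono.supportVal K w ^ 2 := by
  set h := P227.Zono.supportVal K
  have hS : IsCompact (Metric.sphere (0 : Pt 3) 1) := isCompact_sphere 0 1
  have hne : (Metric.sphere (0 : Pt 3) 1).Nonempty := NormedSpace.sphere_nonempty.2 zero_le_one
  have hpos : ∀ w ∈ Metric.sphere (0 : Pt 3) 1, 0 < h w := fun w hw =>
    hK.supportVal_pos (ne_zero_of_mem_unit_sphere ⟨w, hw⟩)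
  obtain ⟨u₀, hu₀, hmax⟩ := hS.exists_isMaxOn hne
    ((continuous_moment hK).continuousOn.div (hK.continuous_supportVal.pow 2).continuousOn
      fun w hw => (pow_pos (hpos w hw) 2).ne')
  have h0 := hpos u₀ hu₀
  refine ⟨(h u₀)⁻¹ • u₀, ?_, fun w => ?_⟩
  · rw [show h ((h u₀)⁻¹ • u₀) = |(h u₀)⁻¹| * h u₀ from hK.supportVal_smul _ _,
      abs_of_pos (inv_pos.2 h0), inv_mul_cancel₀ h0.ne']
  have e : moment K ((h u₀)⁻¹ • u₀) ((h u₀)⁻¹ • u₀) = moment K u₀ u₀ / h u₀ ^ 2 := by
    rw [moment_smul, moment_comm, moment_smul]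
    field_simp
  rw [e]
  rcases eq_or_ne w 0 with rfl | hw
  · simpa [moment] using mul_nonneg (div_nonneg (integral_nonneg fun x => mul_self_nonneg _)
      (sq_nonneg (h u₀))) (sq_nonneg (h (0 : Pt 3)))
  have hn : 0 < ‖w‖ := norm_pos_iff.2 hw
  have hw1 : ‖w‖⁻¹ • w ∈ Metric.sphere (0 : Pt 3) 1 := by
    rw [mem_sphere_zero_iff_norm, norm_smul, norm_inv, norm_norm, inv_mul_cancel₀ hn.ne']
  have hh := hpos _ hw1
  have hb : moment K (‖w‖⁻¹ • w) (‖w‖⁻¹ • w) / h (‖w‖⁻¹ • w) ^ 2
      ≤ moment K u₀ u₀ / h u₀ ^ 2 := hmax hw1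
  have := (div_le_iff₀ (pow_pos hh 2)).1 hb
  rw [moment_smul, moment_comm, moment_smul,
    show h (‖w‖⁻¹ • w) = |‖w‖⁻¹| * h w from hK.supportVal_smul _ _,
    abs_of_pos (inv_pos.2 hn)] at this
  refine le_of_mul_le_mul_left ?_ (mul_pos (inv_pos.2 hn) (inv_pos.2 hn))
  refine le_trans (le_of_eq (mul_assoc _ _ _)) (this.trans (le_of_eq ?_))
  ring

/-- Coordinates adapted to the maximiser. -/
theorem exists_frame (hK : P227.Zono.Body K) {u : Pt 3} (hu : u ≠ 0) :
    ∃ (T : Pt 3 ≃ₗ[ℝ] Pt 3) (a b : Pt 3), moment K a u = 0 ∧ moment K b u = 0 ∧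
      moment K a b = 0 ∧ moment K a a = 1 ∧ moment K b b = 1 ∧
      ∀ x, T x = ![a ⬝ᵥ x, b ⬝ᵥ x, u ⬝ᵥ x] := by
  obtain ⟨j, hj⟩ := Function.ne_iff.1 hu
  rw [Pi.zero_apply] at hj
  set e₁ : Pt 3 := Pi.single (j + 1) 1
  set e₂ : Pt 3 := Pi.single (j + 2) 1
  have hQ := moment_pos hK hu
  set α := moment K e₁ u / moment K u u
  set a₀ : Pt 3 := e₁ + (-α) • u
  have ha₀u : moment K a₀ u = 0 := by
    rw [moment_add hK, moment_smul]
    simp only [α]; field_simp; ring
  have hne12 : j + 1 ≠ j ∧ j + 2 ≠ j ∧ j + 1 ≠ j + 2 := by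
    refine ⟨?_, ?_, ?_⟩ <;> fin_cases j <;> decide
  have ha₀ : a₀ ≠ 0 := fun h => by
    have hj' := congrFun h j
    simp [a₀, e₁, hne12.1.symm, hj] at hj'
    have h1 := congrFun h (j + 1)
    simp [a₀, e₁, hj'] at h1
  have hQa := moment_pos hK ha₀
  set β := moment K e₂ u / moment K u u
  set γ := moment K e₂ a₀ / moment K a₀ a₀
  set b₀ : Pt 3 := e₂ + (-β) • u + (-γ) • a₀
  have hua₀ : moment K u a₀ = 0 := by rw [moment_comm, ha₀u]
  have hb₀u : moment K b₀ u = 0 := by
    simp only [b₀, moment_add hK, moment_smul, ha₀u]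
    simp only [β]; field_simp; ring
  have hb₀a : moment K b₀ a₀ = 0 := by
    simp only [b₀, moment_add hK, moment_smul, hua₀]
    simp only [γ]; field_simp; ring
  -- the three forms determine a point
  have hind : ∀ x : Pt 3, a₀ ⬝ᵥ x = 0 → b₀ ⬝ᵥ x = 0 → u ⬝ᵥ x = 0 → x = 0 := by
    intro x h1 h2 h3
    simp only [b₀, add_dotProduct, smul_dotProduct, h1, h3, smul_zero, add_zero] at h2
    simp only [a₀, add_dotProduct, smul_dotProduct, h3, smul_zero, add_zero] at h1
    simp only [e₁, e₂, single_one_dotProduct] at h1 h2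
    have h0 : x j = 0 := by
      rw [dotProduct, Fin.sum_univ_three] at h3
      fin_cases j <;> simp_all
    funext i
    fin_cases j <;> fin_cases i <;> simp_all
  have hb₀ : b₀ ≠ 0 := fun h => by
    have hk := congrFun h
    have hj' := hk j
    have h1 := hk (j + 1)
    have h2 := hk (j + 2)
    simp [b₀, a₀, e₁, e₂, hne12.2.2, hne12.1.symm, hne12.2.1.symm,
      hne12.2.2.symm] at hj' h1 h2
    have : -β + γ * α = 0 := by
      rcases mul_eq_zero.1 (show (-β + γ * α) * u j = 0 by linear_combination hj') with h | h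
      · exact h
      · exact absurd h hj
    have : (1 : ℝ) = 0 := by linear_combination h2 - u (j + 2) * this
    exact one_ne_zero this
  have hQb := moment_pos hK hb₀
  set a : Pt 3 := (√(moment K a₀ a₀))⁻¹ • a₀
  set b : Pt 3 := (√(moment K b₀ b₀))⁻¹ • b₀
  have hcross : ∀ (c d : ℝ) (v w : Pt 3), moment K (c • v) (d • w) = c * d * moment K v w := by
    intro c d v w
    rw [moment_smul, moment_comm, moment_smul, moment_comm, mul_assoc]
  have hone : ∀ {c : ℝ}, 0 < c → (√c)⁻¹ * (√c)⁻¹ * c = 1 := fun {c} hc => by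
    rw [← mul_inv, Real.mul_self_sqrt hc.le, inv_mul_cancel₀ hc.ne']
  set L : Pt 3 →ₗ[ℝ] Pt 3 :=
    { toFun := fun x => ![a ⬝ᵥ x, b ⬝ᵥ x, u ⬝ᵥ x]
      map_add' := fun x y => by funext i; fin_cases i <;> simp [dotProduct_add]
      map_smul' := fun c x => by funext i; fin_cases i <;> simp [dotProduct_smul] }
  have hinj : Injective L := by
    refine (injective_iff_map_eq_zero L).2 fun x hx => ?_
    have h1 := congrFun hx 0
    have h2 := congrFun hx 1
    have h3 := congrFun hx 2
    simp [L, a, b, (Real.sqrt_pos.2 hQa).ne', (Real.sqrt_pos.2 hQb).ne'] at h1 h2 h3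
    exact hind x h1 h2 h3
  refine ⟨LinearEquiv.ofInjectiveEndo L hinj, a, b, ?_, ?_, ?_, ?_, ?_, fun x => rfl⟩
  · rw [moment_smul, ha₀u, mul_zero]
  · rw [moment_smul, hb₀u, mul_zero]
  · rw [hcross, moment_comm K a₀ b₀, hb₀a, mul_zero]
  · rw [hcross, hone hQa]
  · rw [hcross, hone hQb]

/-- A planar set has at least the polar moment of a disc of the same area. -/
theorem disc_moment_le {S : Set (Pt 2)} (hS : IsCompact S) :
    (volume S).toReal ^ 2 / (2 * Real.pi) ≤ ∫ w in S, w ⬝ᵥ w := by
  set f : Pt 2 → ℝ := fun w => w ⬝ᵥ w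
  have hf : Continuous f := Continuous.dotProduct continuous_id continuous_id
  have hnn : ∀ w, 0 ≤ f w := fun w => Finset.sum_nonneg fun i _ => mul_self_nonneg _
  set A := (volume S).toReal
  have hπ := Real.pi_pos
  have hA : 0 ≤ A := ENNReal.toReal_nonneg
  have hball : ∀ s : ℝ, 0 ≤ s → volume {w : Pt 2 | f w ≤ s} = ENNReal.ofReal (Real.pi * s) := by
    intro s hs
    have e : {w : Pt 2 | f w ≤ s}
        = (WithLp.toLp 2) ⁻¹' Metric.closedBall (0 : EuclideanSpace ℝ (Fin 2)) √s := by
      ext w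
      simp only [mem_ofPred_eq, mem_preimage, mem_closedBall_zero_iff, EuclideanSpace.norm_eq,
        Real.norm_eq_abs, sq_abs]
      rw [Real.sqrt_le_sqrt_iff hs]
      simp [f, dotProduct, pow_two]
    rw [e, (PiLp.volume_preserving_toLp _).measure_preimage measurableSet_closedBall.nullMeasurableSet,
      EuclideanSpace.volume_closedBall_fin_two, ← ENNReal.ofReal_pow (Real.sqrt_nonneg _),
      Real.sq_sqrt hs, ← ENNReal.ofReal_mul hs, mul_comm]
  have hint : IntegrableOn f S := hf.continuousOn.integrableOn_compact hS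
  refine (ENNReal.ofReal_le_ofReal_iff (integral_nonneg fun w => hnn w)).1 ?_
  rw [ofReal_integral_eq_lintegral_ofReal hint (Eventually.of_forall hnn),
    lintegral_eq_lintegral_meas_lt (volume.restrict S) (Eventually.of_forall hnn)
      hf.aemeasurable]
  set ρ := A / Real.pi
  have hρ : 0 ≤ ρ := by positivity
  have hpt : ∀ t ∈ Ioc (0 : ℝ) ρ,
      ENNReal.ofReal (A - Real.pi * t) ≤ (volume.restrict S) {w | t < f w} := by
    intro t ht
    rw [Measure.restrict_apply' hS.measurableSet, ENNReal.ofReal_sub _ (by positivity [ht.1]),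
      ← hball t ht.1.le, ENNReal.ofReal_toReal hS.measure_lt_top.ne]
    rw [tsub_le_iff_right]
    refine (measure_mono (t := ({w | t < f w} ∩ S) ∪ {w | f w ≤ t}) fun w hw => ?_).trans
      (measure_union_le _ _)
    rcases lt_or_ge t (f w) with h | h
    · exact Or.inl ⟨h, hw⟩
    · exact Or.inr h
  refine le_trans ?_ (lintegral_mono_set (show Ioc (0 : ℝ) ρ ⊆ Ioi 0 from Ioc_subset_Ioi_self))
  refine le_trans (le_of_eq ?_) (setLIntegral_mono' measurableSet_Ioc hpt)
  rw [← ofReal_integral_eq_lintegral_ofReal]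
  · rw [← intervalIntegral.integral_of_le hρ, intervalIntegral.integral_sub intervalIntegrable_const
      ((by fun_prop : Continuous fun t : ℝ => Real.pi * t).intervalIntegrable _ _),
      intervalIntegral.integral_const, intervalIntegral.integral_const_mul, integral_id, smul_eq_mul]
    congr 1
    simp only [ρ]
    field_simp
    ring
  · exact (continuous_const.sub (continuous_const.mul continuous_id)).integrableOn_Ioc
  · refine (ae_restrict_iff' measurableSet_Ioc).2 (Eventually.of_forall fun t ht => ?_)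
    have := ht.2
    rw [le_div_iff₀ hπ] at this
    show 0 ≤ A - Real.pi * t
    linarith [mul_comm Real.pi t]

/-- Integration over a body by horizontal slices. -/
theorem integral_slices (hK : P227.Zono.Body K) {g : Pt 3 → ℝ} (hg : Continuous g) :
    Integrable (fun t => ∫ w in slice K t, g (Fin.snoc w t)) ∧
      ∫ x in K, g x = ∫ t, ∫ w in slice K t, g (Fin.snoc w t) := by
  have hA := solid_of_body hK
  set A := snocLin 2 ⁻¹' K
  have hint := hA.integrable_indicator (hg.comp (continuous_snocLin 2))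
  have e : ∀ t, ∫ w, A.indicator (g ∘ snocLin 2) (w, t) = ∫ w in slice K t, g (Fin.snoc w t) := by
    intro t
    rw [← integral_indicator (isCompact_slice3 hK t).measurableSet]
    rfl
  refine ⟨hint.integral_prod_right.congr (Eventually.of_forall e), ?_⟩
  rw [← (measurePreserving_snocLin 2).setIntegral_preimage_emb
    ((snocLin 2).toContinuousLinearEquiv.toHomeomorph).measurableEmbedding g K,
    ← integral_indicator hA.compact.measurableSet, Measure.volume_eq_prod]
  exact (integral_prod_symm _ hint).trans (integral_congr_ae (Eventually.of_forall e))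

theorem integral_linear_image (T : Pt 3 ≃ₗ[ℝ] Pt 3) (hK : P227.Zono.Body K) (g : Pt 3 → ℝ) :
    ∫ y in T '' K, g y = |LinearMap.det (T : Pt 3 →ₗ[ℝ] Pt 3)| * ∫ x in K, g (T x) := by
  set L : Pt 3 →L[ℝ] Pt 3 := (T.toContinuousLinearEquiv : Pt 3 →L[ℝ] Pt 3)
  have h := integral_image_eq_integral_abs_det_fderiv_smul (μ := (volume : Measure (Pt 3)))
    hK.compact.measurableSet (f := T) (f' := fun _ => L) (fun x _ => L.hasFDerivWithinAt)
    T.injective.injOn g
  simp only [smul_eq_mul] at h
  rw [h, integral_const_mul]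
  rfl

theorem exists_position {K : Set (Pt 3)} (hK : P227.Zono.Body K) :
    ∃ T : Pt 3 ≃ₗ[ℝ] Pt 3, P227.Zono.supportVal (T '' K) axis = 1 ∧ ∃ B : ℝ, 0 < B ∧
      (∀ t ∈ Icc (-1 : ℝ) 1, {y : Pt 2 | Real.pi * (y ⬝ᵥ y) ≤ B * (1 - t ^ 2)} ⊆ slice (T '' K) t) ∧
      ∫ t in (0:ℝ)..1, sliceArea (T '' K) t ^ 2
        ≤ 4 * B * ∫ t in (0:ℝ)..1, t ^ 2 * sliceArea (T '' K) t := by
  obtain ⟨u, hu1, hmax⟩ := exists_direction hK
  have hu : u ≠ 0 := fun h => by
    have h0 : P227.Zono.supportVal K (0 : Pt 3) = 0 := by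
      simpa using hK.supportVal_smul 0 (0 : Pt 3)
    rw [h, h0] at hu1
    exact zero_ne_one hu1
  set q := moment K u u
  have hq : 0 < q := moment_pos hK hu
  obtain ⟨T, a, b, hau, hbu, hab, haa, hbb, hT⟩ := exists_frame hK hu
  set K' := T '' K
  have hK' : P227.Zono.Body K' := body_image T hK
  have hdot : ∀ (v : Pt 3) x, v ⬝ᵥ T x = (v 0 • a + v 1 • b + v 2 • u) ⬝ᵥ x := by
    intro v x
    rw [hT, add_dotProduct, add_dotProduct, smul_dotProduct, smul_dotProduct, smul_dotProduct,
      dotProduct, Fin.sum_univ_three]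
    simp
  have hsupp : ∀ v : Pt 3, P227.Zono.supportVal K' v
      = P227.Zono.supportVal K (v 0 • a + v 1 • b + v 2 • u) := by
    intro v
    rw [P227.Zono.supportVal, P227.Zono.supportVal, ← image_comp]
    congr 1
    exact image_congr fun x _ => hdot v x
  have hquad : ∀ v : Pt 3, moment K (v 0 • a + v 1 • b + v 2 • u) (v 0 • a + v 1 • b + v 2 • u)
      = v 0 ^ 2 + v 1 ^ 2 + q * v 2 ^ 2 := by
    intro v
    simp only [moment_add hK, moment_smul, moment_add_right hK, moment_smul_right, hau, hbu,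
      hab, haa, hbb, moment_comm K u a, moment_comm K u b, moment_comm K b a, q]
    ring
  have h1 : P227.Zono.supportVal K' axis = 1 := by
    rw [hsupp, ← hu1]
    congr 1
    simp [axis]
  refine ⟨T, h1, Real.pi / q, by positivity, fun t ht y hy => ?_, ?_⟩
  · have hy' : q * (y ⬝ᵥ y) ≤ 1 - t ^ 2 := by
      rw [mem_ofPred_eq, div_mul_eq_mul_div, le_div_iff₀ hq] at hy
      exact le_of_mul_le_mul_left (le_trans (le_of_eq (by ring)) hy) Real.pi_pos
    show (Fin.snoc y t : Pt 3) ∈ K'
    have := mem_smul_of_dot_le (G := K') (r := 1) (z := (Fin.snoc y t : Pt 3)) hK'.compact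
      hK'.convex ⟨_, interior_subset hK'.zero_interior⟩ fun v => ?_
    · simpa using this
    rw [one_mul]
    have hM := hmax (v 0 • a + v 1 • b + v 2 • u)
    rw [hquad, ← hsupp] at hM
    have hh := hK'.supportVal_nonneg v
    set h := P227.Zono.supportVal K' v
    have e : v ⬝ᵥ (Fin.snoc y t : Pt 3) = v 0 * y 0 + v 1 * y 1 + v 2 * t := by
      simp [dotProduct, Fin.sum_univ_three, Fin.snoc]
    rw [e]
    simp only [dotProduct, Fin.sum_univ_two] at hy'
    set z := v 0 * y 0 + v 1 * y 1 + v 2 * t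
    have cs : q * z ^ 2 ≤ (v 0 ^ 2 + v 1 ^ 2 + q * v 2 ^ 2) * (q * (y 0 * y 0 + y 1 * y 1) + t ^ 2) := by
      nlinarith [sq_nonneg (v 0 * t - q * (v 2 * y 0)), sq_nonneg (v 1 * t - q * (v 2 * y 1)),
        mul_nonneg hq.le (sq_nonneg (v 0 * y 1 - v 1 * y 0))]
    have cs2 : q * z ^ 2 ≤ q * h ^ 2 := by
      refine cs.trans (le_trans (mul_le_of_le_one_right (by positivity) (by linarith)) hM)
    nlinarith [le_of_mul_le_mul_left cs2 hq]
  set d := |LinearMap.det (T : Pt 3 →ₗ[ℝ] Pt 3)|
  obtain ⟨hi2, hm2⟩ := integral_slices hK' (g := fun z : Pt 3 => z 0 * z 0 + z 1 * z 1) (by fun_prop)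
  obtain ⟨hi3, hm3⟩ := integral_slices hK' (g := fun z : Pt 3 => z 2 * z 2) (by fun_prop)
  have e2 : ∫ z in K', (z 0 * z 0 + z 1 * z 1) = 2 * d := by
    rw [integral_linear_image T hK]
    have : ∫ x in K, (T x 0 * T x 0 + T x 1 * T x 1) = 2 := by
      simp only [hT]
      rw [show (2 : ℝ) = moment K a a + moment K b b by rw [haa, hbb]; norm_num, moment, moment,
        ← integral_add (integrableOn_moment hK a a) (integrableOn_moment hK b b)]
      rfl
    rw [this, mul_comm]
  have e3 : ∫ z in K', z 2 * z 2 = d * q := by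
    rw [integral_linear_image T hK]
    simp only [hT]
    rfl
  set A := sliceArea K'
  have hz : ∀ t, 1 < |t| → A t = 0 := fun t ht => sliceArea_eq_zero hK' h1 ht
  have eA : ∀ t, ∫ w in slice K' t, (Fin.snoc w t : Pt 3) 2 * (Fin.snoc w t : Pt 3) 2 = t ^ 2 * A t := by
    intro t
    simp [Fin.snoc, A, sliceArea, Measure.real, pow_two]
    ring
  simp only [eA] at hi3 hm3
  rw [e3, integral_eq_two_mul hi3 (fun t => by simp [A, sliceArea_neg hK'])
    (fun t ht => by simp [hz t ht])] at hm3
  have hsq : Integrable fun t => A t ^ 2 := by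
    simp only [pow_two]
    refine (integrable_sliceArea hK').bdd_mul (c := A 0)
      (integrable_sliceArea hK').aestronglyMeasurable (Eventually.of_forall fun t => ?_)
    rw [Real.norm_eq_abs, abs_of_nonneg (sliceArea_bounded hK' t).1]
    exact (sliceArea_bounded hK' t).2
  have key : ∫ t, A t ^ 2 / (2 * Real.pi) ≤ 2 * d := by
    rw [← e2, hm2]
    refine integral_mono (hsq.div_const _) hi2 fun t => ?_
    refine (disc_moment_le (isCompact_slice3 hK' t)).trans (le_of_eq ?_)
    simp [Fin.snoc, dotProduct, Fin.sum_univ_two]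
  rw [integral_div, integral_eq_two_mul hsq (fun t => by simp [A, sliceArea_neg hK'])
    (fun t ht => by simp [hz t ht]), div_le_iff₀ (by positivity)] at key
  have e4 : 4 * (Real.pi / q) * ∫ t in (0:ℝ)..1, t ^ 2 * A t = 2 * d * Real.pi := by
    field_simp
    linear_combination -2 * hm3
  rw [e4]
  linarith

end Vale.Agent.P237.Full
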