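import Vale.Agent.P237.Full.Slices
import Vale.Agent.P237.Full.Defs3

/-!
# P237: the area profile of a symmetric body in three-space
-/

namespace Vale.Agent.P237.Full

open MeasureTheory Set Function Topology Filter
open scoped ENNReal NNReal Pointwise

/-- An even function living on `[-1, 1]` has twice its integral over `[0, 1]`. -/
theorem integral_eq_two_mul {φ : ℝ → ℝ} (hi : Integrable φ) (he : ∀ t, φ (-t) = φ t)
    (hz : ∀ t, 1 < |t| → φ t = 0) : ∫ t, φ t = 2 * ∫ t in (0:ℝ)..1, φ t := by
  have hs : ∫ t, φ t = ∫ t in (-1:ℝ)..1, φ t := by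
    rw [intervalIntegral.integral_of_le (by norm_num), ← integral_Icc_eq_integral_Ioc]
    refine (setIntegral_eq_integral_of_forall_compl_eq_zero fun t ht => hz t ?_).symm
    rw [mem_Icc, ← abs_le] at ht
    exact not_le.1 ht
  have hn : ∫ t in (-1:ℝ)..0, φ t = ∫ t in (0:ℝ)..1, φ t := by
    have := intervalIntegral.integral_comp_neg (a := (0:ℝ)) (b := 1) φ
    simp only [he, neg_zero] at this
    exact this.symm
  rw [hs, ← intervalIntegral.integral_add_adjacent_intervals hi.intervalIntegrable
    hi.intervalIntegrable (b := 0), hn]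
  ring

/-- The body in split coordinates. -/
theorem solid_of_body {K : Set (Pt 3)} (hK : P227.Zono.Body K) : Solid (snocLin 2 ⁻¹' K) := by
  refine ⟨?_, hK.convex.linear_preimage (snocLin 2).toLinearMap, ?_⟩
  · rw [show snocLin 2 ⁻¹' K = (snocLin 2).symm '' K from ((snocLin 2).symm.image_eq_preimage_symm K).symm]
    exact hK.compact.image (snocLin 2).symm.toLinearMap.continuous_of_finiteDimensional
  · exact (snocLin 2).toContinuousLinearEquiv.continuous.continuousAt.preimage_mem_nhds
      (by simpa using hK.nhds)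

theorem sliceVol_eq_sliceArea (K : Set (Pt 3)) :
    sliceVol (snocLin 2 ⁻¹' K) = sliceArea K := rfl

theorem slice_eq_slice (K : Set (Pt 3)) (t : ℝ) :
    P237.slice (snocLin 2 ⁻¹' K) t = slice K t := rfl

theorem isCompact_slice3 {K : Set (Pt 3)} (hK : P227.Zono.Body K) (t : ℝ) :
    IsCompact (slice K t) :=
  (solid_of_body hK).isCompact_slice t

theorem volume_eq_preimage (K : Set (Pt 3)) :
    volume (snocLin 2 ⁻¹' K) = volume K := by
  rw [← volume_image_snocLin, image_preimage_eq _ (snocLin 2).surjective]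

theorem axis_dot_snoc (y : Pt 2) (t : ℝ) : axis ⬝ᵥ (Fin.snoc y t : Pt 3) = t := by
  simp [axis, Fin.snoc]

theorem sliceArea_neg {K : Set (Pt 3)} (hK : P227.Zono.Body K) (t : ℝ) :
    sliceArea K (-t) = sliceArea K t := by
  have hs : slice K (-t) = -slice K t := by
    ext y
    have e : -(Fin.snoc y (-t) : Pt 3) = Fin.snoc (-y) t := by
      rw [← snocLin_apply 2 (y, -t), ← map_neg, snocLin_apply]
      simp
    refine ⟨fun h => ?_, fun h => ?_⟩
    · show (Fin.snoc (-y) t : Pt 3) ∈ K
      exact e ▸ hK.neg_mem _ h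
    · have := hK.neg_mem _ (show (Fin.snoc (-y) t : Pt 3) ∈ K from h)
      rwa [← e, neg_neg] at this
  rw [sliceArea, sliceArea, hs, Measure.measure_neg]

/-- The slices of a symmetric body shrink away from the middle. -/
theorem sliceArea_le {K : Set (Pt 3)} (hK : P227.Zono.Body K) {s t : ℝ}
    (hs : 0 ≤ s) (hst : s ≤ t) : sliceArea K t ≤ sliceArea K s := by
  rcases hst.eq_or_lt with rfl | hlt
  · exact le_rfl
  have ht : 0 < t := hs.trans_lt hlt
  set p := (1 + s / t) / 2
  set q := (1 - s / t) / 2
  have hq : 0 < q := by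
    have : s / t < 1 := (div_lt_one ht).2 hlt
    simp only [q]; linarith
  have hp : 0 < p := by
    have : 0 ≤ s / t := div_nonneg hs ht.le
    simp only [p]; linarith
  have hpq : p + q = 1 := by simp only [p, q]; ring
  have hA := solid_of_body hK
  have hsub : p • slice K t + q • slice K (-t) ⊆ slice K s := by
    have h := hA.slice_combo hp.le hq.le hpq t (-t)
    rw [show p * t + q * -t = s by simp only [p, q]; field_simp; ring] at h
    exact h
  have hneg : volume (slice K (-t)) = volume (slice K t) := by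
    have := sliceArea_neg hK t
    rw [sliceArea, sliceArea, ENNReal.toReal_eq_toReal_iff'
      (isCompact_slice3 hK _).measure_lt_top.ne (isCompact_slice3 hK _).measure_lt_top.ne] at this
    exact this
  have hbm := P227.Zono.brunn_minkowski (isCompact_slice3 hK t) (isCompact_slice3 hK (-t)) hp hq hpq
  rw [hneg, ← ENNReal.rpow_add_of_nonneg _ _ hp.le hq.le, hpq, ENNReal.rpow_one] at hbm
  exact ENNReal.toReal_mono (isCompact_slice3 hK s).measure_lt_top.ne
    (hbm.trans (measure_mono hsub))

theorem sliceArea_eq_zero {K : Set (Pt 3)} (hK : P227.Zono.Body K)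
    (h1 : P227.Zono.supportVal K axis = 1) {t : ℝ} (ht : 1 < |t|) : sliceArea K t = 0 := by
  have : slice K t = ∅ := eq_empty_of_forall_notMem fun y hy => by
    have h := (P227.Zono.supportVal_eq hK axis).1 _ hy
    rw [axis_dot_snoc, h1] at h
    linarith
  simp [sliceArea, this]

theorem integrable_sliceArea {K : Set (Pt 3)} (hK : P227.Zono.Body K) :
    Integrable (sliceArea K) :=
  (solid_of_body hK).integrable_sliceVol

theorem sliceArea_bounded {K : Set (Pt 3)} (hK : P227.Zono.Body K) (t : ℝ) :
    0 ≤ sliceArea K t ∧ sliceArea K t ≤ sliceArea K 0 := by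
  refine ⟨ENNReal.toReal_nonneg, ?_⟩
  rcases le_total 0 t with h | h
  · exact sliceArea_le hK le_rfl h
  · rw [← sliceArea_neg hK]
    exact sliceArea_le hK le_rfl (neg_nonneg.2 h)

theorem integrable_sqrt_sliceArea {K : Set (Pt 3)} (hK : P227.Zono.Body K)
    (h1 : P227.Zono.supportVal K axis = 1) : Integrable fun t => √(sliceArea K t) := by
  have hsupp : support (fun t => √(sliceArea K t)) ⊆ Icc (-1) 1 := fun t ht => by
    rw [mem_Icc, ← abs_le]
    by_contra h
    exact ht (by simp [sliceArea_eq_zero hK h1 (not_le.1 h)])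
  refine (integrableOn_iff_integrable_of_support_subset hsupp).1 ?_
  refine Measure.integrableOn_of_bounded (M := √(sliceArea K 0)) measure_Icc_lt_top.ne
    ((solid_of_body hK).measurable_sliceVol.sqrt).aestronglyMeasurable
    (Eventually.of_forall fun t => ?_)
  rw [Real.norm_eq_abs, abs_of_nonneg (Real.sqrt_nonneg _)]
  exact Real.sqrt_le_sqrt (sliceArea_bounded hK t).2

theorem sliceArea_props {K : Set (Pt 3)} (hK : P227.Zono.Body K)
    (h1 : P227.Zono.supportVal K axis = 1) :
    (∀ t, sliceArea K (-t) = sliceArea K t) ∧ AntitoneOn (sliceArea K) (Icc 0 1)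
      ∧ (∀ t, 1 < |t| → sliceArea K t = 0)
      ∧ (volume K).toReal = 2 * ∫ t in (0:ℝ)..1, sliceArea K t
      ∧ ∫ t : ℝ, √(sliceArea K t) = 2 * ∫ t in (0:ℝ)..1, √(sliceArea K t) := by
  refine ⟨sliceArea_neg hK, fun s hs t _ hst => sliceArea_le hK hs.1 hst,
    fun t ht => sliceArea_eq_zero hK h1 ht, ?_, ?_⟩
  · rw [← integral_eq_two_mul (integrable_sliceArea hK) (sliceArea_neg hK)
      (fun t ht => sliceArea_eq_zero hK h1 ht), ← volume_eq_preimage,
      ← (solid_of_body hK).integral_sliceVol, sliceVol_eq_sliceArea]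
  · exact integral_eq_two_mul (integrable_sqrt_sliceArea hK h1) (fun t => by rw [sliceArea_neg hK])
      (fun t ht => by simp [sliceArea_eq_zero hK h1 ht])

end Vale.Agent.P237.Full
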