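import Vale.Agent.P237.Full.Min
import Vale.Agent.P237.Full.Axis
import Vale.Agent.P237.Full.Ball
import Vale.Agent.P237.Full.Profile
import Vale.Agent.P237.Full.Direction
import Vale.Agent.P237.Full.Lemma.OneDim

/-!
# P237: a body fixed by the second projection body is bounded by the ball
-/

namespace Vale.Agent.P237.Full

open MeasureTheory Set Function Topology
open scoped ENNReal Pointwise

/-- The defining relation of a fixed body is preserved by linear maps. -/
theorem fixed_image {m : ℕ} {K : Set (Pt (m + 2))} (hK : P227.Zono.Body K) {c : ℝ}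
    (hc : ∀ u, gain (gainBody K) u = c * P227.Zono.supportVal K u)
    (T : Pt (m + 2) ≃ₗ[ℝ] Pt (m + 2)) (u : Pt (m + 2)) :
    gain (gainBody (T '' K)) u
      = |LinearMap.det (T : Pt (m + 2) →ₗ[ℝ] Pt (m + 2))| ^ m * c
          * P227.Zono.supportVal (T '' K) u := by
  classical
  obtain ⟨hd, hT⟩ := exists_factor T
  set d := |LinearMap.det (T : Pt (m + 2) →ₗ[ℝ] Pt (m + 2))|
  set M := LinearMap.toMatrix' (T : Pt (m + 2) →ₗ[ℝ] Pt (m + 2))
  set S : Pt (m + 2) →ₗ[ℝ] Pt (m + 2) := Matrix.toLin' M.transpose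
  have hdetS : |LinearMap.det S| = d := by
    simp [S, M, d, LinearMap.det_toLin', LinearMap.det_toMatrix']
  have hdot : ∀ y w, y ⬝ᵥ T w = S y ⬝ᵥ w := fun y w => by
    have : T w = M.mulVec w := by simp [M, ← Matrix.toLin'_apply]
    rw [this, Matrix.dotProduct_mulVec, Matrix.toLin'_apply, Matrix.mulVec_transpose]
  have hSi : Injective S := by
    rw [← LinearMap.ker_eq_bot]
    by_contra h
    exact hd.ne' (by rw [← hdetS, LinearMap.det_eq_zero_iff_ker_ne_bot.2 h, abs_zero])
  set Se := LinearEquiv.ofInjectiveEndo S hSi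
  obtain ⟨-, hSe⟩ := exists_factor Se
  have hset : gainBody (T '' K) = Se.symm '' (d • gainBody K) := by
    rw [show (Se.symm : Pt (m + 2) → Pt (m + 2)) '' (d • gainBody K) = S ⁻¹' (d • gainBody K) from
      Se.symm.image_eq_preimage_symm _]
    ext y
    rw [mem_preimage, mem_smul_set_iff_inv_smul_mem₀ hd.ne']
    constructor
    · intro hy w
      have h := hy (T w)
      rw [gain_image T hT, hdot] at h
      rwa [smul_dotProduct, smul_eq_mul, inv_mul_le_iff₀ hd]
    · intro hy v
      obtain ⟨w, rfl⟩ := T.surjective v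
      have h := hy w
      rw [smul_dotProduct, smul_eq_mul, inv_mul_le_iff₀ hd] at h
      rwa [gain_image T hT, hdot]
  have hC := Cvx.of_body hK
  have hG := hC.cvx_gainBody
  have hinv : ∀ A : Set (Pt (m + 2)), (volume (Se.symm '' A)).toReal = d⁻¹ * (volume A).toReal := by
    intro A
    have h := hSe (Se.symm '' A)
    rw [show (Se : Pt (m + 2) → Pt (m + 2)) '' (Se.symm '' A) = A by simp [image_image],
      show |LinearMap.det (Se : Pt (m + 2) →ₗ[ℝ] Pt (m + 2))| = d from hdetS] at h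
    rw [h, inv_mul_cancel_left₀ hd.ne']
  have hsupp : P227.Zono.supportVal (T '' K) u = P227.Zono.supportVal K (S u) := by
    rw [P227.Zono.supportVal, P227.Zono.supportVal, image_image]
    simp only [hdot]
  have hu : u = Se.symm (S u) := (Se.symm_apply_apply u).symm
  conv_lhs => rw [hset, hu, gain_image Se.symm hinv, gain_dilate hG hd, hc]
  rw [hsupp, pow_succ]
  field_simp

theorem volume_disc {R : ℝ} (hR : 0 ≤ R) :
    (volume {y : Pt 2 | Real.pi * (y ⬝ᵥ y) ≤ R}).toReal = R := by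
  have hpi := Real.pi_pos
  have e : (WithLp.toLp 2 '' {y : Pt 2 | Real.pi * (y ⬝ᵥ y) ≤ R} : Set (EuclideanSpace ℝ (Fin 2)))
      = Metric.closedBall 0 (√(R / Real.pi)) := by
    ext x
    have en : WithLp.ofLp x ⬝ᵥ WithLp.ofLp x = ‖x‖ ^ 2 := by
      rw [EuclideanSpace.norm_sq_eq]; simp [dotProduct, sq]
    rw [mem_closedBall_zero_iff, Real.le_sqrt (norm_nonneg x) (by positivity), ← en,
      le_div_iff₀ hpi, mul_comm]
    constructor
    · rintro ⟨z, hz, rfl⟩; exact hz
    · intro h; exact ⟨WithLp.ofLp x, h, by simp⟩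
  have hm : MeasurableSet (WithLp.toLp 2 '' {y : Pt 2 | Real.pi * (y ⬝ᵥ y) ≤ R} :
      Set (EuclideanSpace ℝ (Fin 2))) := by rw [e]; exact measurableSet_closedBall
  rw [← preimage_image_eq {y : Pt 2 | Real.pi * (y ⬝ᵥ y) ≤ R} (WithLp.toLp_injective 2),
    (PiLp.volume_preserving_toLp (Fin 2)).measure_preimage hm.nullMeasurableSet, e,
    EuclideanSpace.volume_closedBall_fin_two, ENNReal.toReal_mul, ENNReal.toReal_pow,
    ENNReal.toReal_ofReal (Real.sqrt_nonneg _), Real.sq_sqrt (by positivity),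
    ENNReal.toReal_ofReal Real.pi_pos.le]
  field_simp

/-- A convex body equals a closed subset of full volume. -/
theorem eq_of_subset_volume {K E : Set (Pt 3)} (hK : Cvx K) (hE : IsCompact E) (hsub : E ⊆ K)
    (hv : (volume K).toReal ≤ (volume E).toReal) : K = E := by
  refine Subset.antisymm (fun x hx => ?_) hsub
  by_contra hxE
  have hcl : x ∈ closure (interior K) := by
    rw [hK.convex.closure_interior_eq_closure_of_nonempty_interior
      ⟨0, mem_interior_iff_mem_nhds.2 hK.nhds⟩]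
    exact subset_closure hx
  obtain ⟨y, hy, hyE⟩ := mem_closure_iff.1 hcl Eᶜ hE.isClosed.isOpen_compl hxE
  have hpos : 0 < volume (K \ E) := ((hE.isClosed.isOpen_compl.inter isOpen_interior).measure_pos
    volume ⟨y, hy, hyE⟩).trans_le (measure_mono fun z hz => ⟨interior_subset hz.2, hz.1⟩)
  rw [measure_sdiff hsub hE.measurableSet.nullMeasurableSet hE.measure_lt_top.ne] at hpos
  rw [ENNReal.toReal_le_toReal hK.compact.measure_lt_top.ne hE.measure_lt_top.ne] at hv
  exact hpos.ne' (tsub_eq_zero_of_le hv)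

/-- A fixed body has at least the constant of the ball, with equality only at ellipsoids. -/
theorem fixed_lower {K : Set (Pt 3)} (hK : P227.Zono.Body K) {c : ℝ}
    (hc : ∀ u, gain (gainBody K) u = c * P227.Zono.supportVal K u) :
    3 * Real.pi ^ 2 / 4 * (volume K).toReal ≤ c ∧
      (c ≤ 3 * Real.pi ^ 2 / 4 * (volume K).toReal → ∃ T : Pt 3 ≃ₗ[ℝ] Pt 3, K = T '' ball3) := by
  obtain ⟨T, hT1, B, hB, hdisc, h4⟩ := exists_position hK
  obtain ⟨hd, hTv⟩ := exists_factor T
  set d := |LinearMap.det (T : Pt 3 →ₗ[ℝ] Pt 3)|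
  set K' := T '' K
  have hK' : P227.Zono.Body K' := body_image T hK
  have hC' := Cvx.of_body hK'
  obtain ⟨-, hanti, -, hvol, hsqrt⟩ := sliceArea_props hK' hT1
  have hlow : ∀ z ∈ Icc (0 : ℝ) 1, B * (1 - z ^ 2) ≤ sliceArea K' z := by
    intro z hz
    rw [← volume_disc (mul_nonneg hB.le (show 0 ≤ 1 - z ^ 2 by nlinarith [hz.1, hz.2]))]
    refine ENNReal.toReal_mono ?_ (measure_mono (hdisc z ⟨by linarith [hz.1], hz.2⟩))
    refine (lt_of_le_of_lt (measure_mono (t := (fun x : Pt 3 => Fin.init x) '' K') fun y hy =>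
      ⟨_, hy, by simp⟩) ?_).ne
    exact (hC'.compact.image (continuous_pi fun i => continuous_apply _)).measure_lt_top
  obtain ⟨hmain, heq⟩ := profile_bound hB hanti hlow h4
  have hax := gain_gainBody_axis hC'
  rw [hsqrt, fixed_image (m := 1) hK hc T, hT1, pow_one, mul_one] at hax
  change _ ≤ d * c at hax
  have hV : (volume K').toReal = d * (volume K).toReal := hTv K
  rw [hV] at hvol
  have e3 : d * (3 * Real.pi ^ 2 / 4 * (volume K).toReal)
      = 16 * (3 * Real.pi ^ 2 / 32 * ∫ t in (0:ℝ)..1, sliceArea K' t) := by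
    linear_combination (3 * Real.pi ^ 2 / 4) * hvol
  refine ⟨le_of_mul_le_mul_left (by linarith) hd, fun hle => ?_⟩
  have h0 := heq (by nlinarith [mul_le_mul_of_nonneg_left hle hd.le])
  have hint : IntervalIntegrable (sliceArea K') volume 0 1 :=
    AntitoneOn.intervalIntegrable (by rwa [uIcc_of_le zero_le_one])
  rw [intervalIntegral.integral_sub hint
    ((by fun_prop : Continuous fun z : ℝ => B * (1 - z ^ 2)).intervalIntegrable _ _)] at h0
  have hpar : ∫ z in (0:ℝ)..1, B * (1 - z ^ 2) = 2 / 3 * B := by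
    rw [intervalIntegral.integral_const_mul, intervalIntegral.integral_sub intervalIntegrable_const
      ((by fun_prop : Continuous fun z : ℝ => z ^ 2).intervalIntegrable _ _)]
    simp [integral_pow]
    ring
  rw [hpar] at h0
  set ρ := √(B / Real.pi)
  have hρ : 0 < ρ := Real.sqrt_pos.2 (div_pos hB Real.pi_pos)
  set D : Pt 3 →ₗ[ℝ] Pt 3 := Matrix.toLin' (Matrix.diagonal ![ρ, ρ, 1])
  have hdet : LinearMap.det D = ρ ^ 2 := by
    simp [D, LinearMap.det_toLin', Matrix.det_diagonal, Fin.prod_univ_three, sq]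
  have hsubK : D '' ball3 ⊆ K' := by
    rintro _ ⟨w, hw, rfl⟩
    change w ⬝ᵥ w ≤ 1 at hw
    simp only [dotProduct, Fin.sum_univ_three] at hw
    have ht : w 2 ∈ Icc (-1 : ℝ) 1 := by
      rw [mem_Icc, ← abs_le, ← sq_le_one_iff_abs_le_one]
      nlinarith
    have h := hdisc _ ht (show Real.pi * ((![ρ * w 0, ρ * w 1] : Pt 2) ⬝ᵥ ![ρ * w 0, ρ * w 1])
        ≤ B * (1 - w 2 ^ 2) by
      have e : Real.pi * ρ ^ 2 = B := by
        rw [Real.sq_sqrt (div_nonneg hB.le Real.pi_pos.le)]; field_simp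
      simp only [dotProduct, Fin.sum_univ_two, Matrix.cons_val_zero, Matrix.cons_val_one]
      nlinarith [mul_le_mul_of_nonneg_left (show w 0 ^ 2 + w 1 ^ 2 ≤ 1 - w 2 ^ 2 by linarith) hB.le])
    convert (show (Fin.snoc (![ρ * w 0, ρ * w 1] : Pt 2) (w 2) : Pt 3) ∈ K' from h) using 1
    funext i
    fin_cases i <;> simp [D, Matrix.mulVec_diagonal, Fin.snoc]
  have hEc : IsCompact (D '' ball3) := isCompact_ball3.image D.continuous_of_finiteDimensional
  have hEv : (volume (D '' ball3)).toReal = 4 / 3 * B := by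
    rw [Measure.addHaar_image_linearMap, ENNReal.toReal_mul, ENNReal.toReal_ofReal (abs_nonneg _),
      hdet, abs_of_nonneg (by positivity), volume_ball3, Real.sq_sqrt (by positivity)]
    field_simp
  have hKE : K' = D '' ball3 := eq_of_subset_volume hC' hEc hsubK (by rw [hEv, hV, hvol]; linarith)
  have hDi : Injective D := by
    rw [← LinearMap.ker_eq_bot]
    by_contra h
    exact (pow_pos hρ 2).ne' (hdet ▸ LinearMap.det_eq_zero_iff_ker_ne_bot.2 h)
  refine ⟨(LinearEquiv.ofInjectiveEndo D hDi).trans T.symm, ?_⟩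
  rw [show ((LinearEquiv.ofInjectiveEndo D hDi).trans T.symm : Pt 3 → Pt 3) = T.symm ∘ D from rfl,
    image_comp, ← hKE]
  simp [K', image_image]

end Vale.Agent.P237.Full
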