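import Vale.Agent.P237.Full.Slices

/-!
# P237: equality in the Brunn–Minkowski inequality for convex bodies
-/

namespace Vale.Agent.P237.Full

open MeasureTheory Set Function Topology Filter
open scoped ENNReal NNReal Pointwise

variable {k m : ℕ}

theorem one_le_product {p q x y : ℝ} (hp : 0 < p) (hq : 0 < q) (hpq : p + q = 1) (hx : 0 < x)
    (hxy : x * y = 1) (n : ℕ) :
    1 ≤ (p + q * x) ^ n * (p + q * y ^ n) ∧
      (y ≠ 1 → 0 < n → 1 < (p + q * x) ^ n * (p + q * y ^ n)) := by
  have hy : 0 < y := pos_of_mul_pos_right (by rw [hxy]; norm_num) hx.le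
  induction n with
  | zero => simp [hpq]
  | succ n ih =>
    have hb : 0 < p + q * x := by positivity
    have e : (p + q * x) * (p + q * y ^ (n + 1)) - (p + q * y ^ n)
        = p * q * x * ((y - 1) * (y ^ (n + 1) - 1)) := by
      obtain rfl : p = 1 - q := by linarith
      have h1 : x * y ^ (n + 1) = y ^ n := by rw [pow_succ, mul_left_comm, hxy, mul_one]
      have h2 : x * y ^ (n + 1) * y = y ^ (n + 1) := by rw [h1, pow_succ]
      linear_combination (q ^ 2) * h1 + (-(1 - q) * q) * h2 + ((1 - q) * q) * hxy + ((1 - q) * q) * h1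
    have hnn : 0 ≤ (y - 1) * (y ^ (n + 1) - 1) := by
      rcases le_total 1 y with h | h
      · exact mul_nonneg (sub_nonneg.2 h) (sub_nonneg.2 (one_le_pow₀ h))
      · exact mul_nonneg_of_nonpos_of_nonpos (sub_nonpos.2 h)
          (sub_nonpos.2 (pow_le_one₀ hy.le h))
    have hstep : p + q * y ^ n ≤ (p + q * x) * (p + q * y ^ (n + 1)) := by
      linarith [mul_nonneg (mul_nonneg (mul_nonneg hp.le hq.le) hx.le) hnn]
    have hmono : (p + q * x) ^ n * (p + q * y ^ n)
        ≤ (p + q * x) ^ (n + 1) * (p + q * y ^ (n + 1)) := by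
      rw [pow_succ, mul_assoc]
      exact mul_le_mul_of_nonneg_left hstep (pow_nonneg hb.le n)
    refine ⟨ih.1.trans hmono, fun hy1 _ => ?_⟩
    rcases Nat.eq_zero_or_pos n with rfl | hn
    · have hsq : 0 < (y - 1) * (y ^ (0 + 1) - 1) := by
        simpa using mul_self_pos.2 (sub_ne_zero.2 hy1)
      have hpos := mul_pos (mul_pos (mul_pos hp hq) hx) hsq
      simp only [zero_add, pow_one, pow_zero, mul_one] at e hpos ⊢
      linarith
    · exact (ih.2 hy1 hn).trans_le hmono

theorem profile_ge {p q r s : ℝ} (hp : 0 < p) (hq : 0 < q) (hpq : p + q = 1) (hr : 0 < r)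
    (hs : 0 < s) (n : ℕ) :
    r ^ (n + 1) ≤ (p * r + q * s) ^ (n + 1) * (p + q * (r ^ (n + 1) / s ^ (n + 1))) ∧
    ((p * r + q * s) ^ (n + 1) * (p + q * (r ^ (n + 1) / s ^ (n + 1))) = r ^ (n + 1) → r = s) := by
  have hxy : s / r * (r / s) = 1 := by field_simp
  obtain ⟨h1, h2⟩ := one_le_product hp hq hpq (div_pos hs hr) hxy (n + 1)
  have e : (p * r + q * s) ^ (n + 1) * (p + q * (r ^ (n + 1) / s ^ (n + 1)))
      = r ^ (n + 1) * ((p + q * (s / r)) ^ (n + 1) * (p + q * (r / s) ^ (n + 1))) := by
    rw [← mul_assoc, ← mul_pow, div_pow]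
    congr 2
    field_simp
  refine ⟨?_, fun heq => ?_⟩
  · rw [e]; exact le_mul_of_one_le_right (by positivity) h1
  · by_contra hne
    have := h2 (fun h => hne ((div_eq_one_iff_eq hs.ne').1 h)) (Nat.succ_pos n)
    rw [e] at heq
    nlinarith [pow_pos hr (n + 1)]

/-- Equal volumes and no gain in the combination: the height distributions are translates. -/
theorem height_shift {A B : Set (Pt (k + 1) × ℝ)} (hA : Solid A) (hB : Solid B)
    (hV : (volume B).toReal = (volume A).toReal) {p q : ℝ} (hp : 0 < p) (hq : 0 < q)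
    (hpq : p + q = 1) (hC : volume (p • A + q • B) ≤ volume A) :
    ∃ c, hi B = hi A + c ∧
      ∫ x in B, x.2 = (∫ x in A, x.2) + c * (volume A).toReal := by
  set I := Ioo (lo A) (hi A)
  choose! w hwmem hw using fun (z : ℝ) (hz : z ∈ I) =>
    hB.exists_below_eq (hV ▸ hA.below_mem hz)
  have hmono : StrictMonoOn w I := by
    intro z hz z' hz' hlt
    by_contra hle
    have := (hB.strictMonoOn_below.le_iff_le (Ioo_subset_Icc_self (hwmem z' hz'))
      (Ioo_subset_Icc_self (hwmem z hz))).2 (not_lt.1 hle)
    rw [hw z hz, hw z' hz'] at this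
    exact not_lt.2 this (hA.strictMonoOn_below (Ioo_subset_Icc_self hz) (Ioo_subset_Icc_self hz') hlt)
  have himage : w '' I = Ioo (lo B) (hi B) := by
    refine Subset.antisymm (image_subset_iff.2 hwmem) fun v hv => ?_
    obtain ⟨z, hz, he⟩ := hA.exists_below_eq (hV ▸ hB.below_mem hv)
    exact ⟨z, hz, hB.strictMonoOn_below.injOn (Ioo_subset_Icc_self (hwmem z hz))
      (Ioo_subset_Icc_self hv) (by rw [hw z hz, he])⟩
  have hwd : ∀ z ∈ I, HasDerivAt w (sliceVol A z / sliceVol B (w z)) z := by
    intro z hz
    have hc : ContinuousAt w z := hmono.continuousAt_of_image_mem_nhds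
      (isOpen_Ioo.mem_nhds hz) (himage ▸ isOpen_Ioo.mem_nhds (hwmem z hz))
    have hgpos := hB.slice_pos (hwmem z hz)
    have ha := hA.hasDerivAt_below hz
    rw [hasDerivAt_iff_tendsto_slope] at ha ⊢
    have hsl : Tendsto (dslope (below B) (w z)) (𝓝 (w z)) (𝓝 (sliceVol B (w z))) := by
      have h' :=
        (continuousAt_dslope_same.2 (hB.hasDerivAt_below (hwmem z hz)).differentiableAt).tendsto
      rwa [dslope_same, (hB.hasDerivAt_below (hwmem z hz)).deriv] at h'
    refine (ha.div ((hsl.comp hc.tendsto).mono_left nhdsWithin_le_nhds) hgpos.ne').congr' ?_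
    filter_upwards [mem_nhdsWithin_of_mem_nhds (isOpen_Ioo.mem_nhds hz), self_mem_nhdsWithin]
      with y hy hne
    have hwne : w y ≠ w z := fun h => hne (hmono.injOn hy hz h)
    have hbne : below A y - below A z ≠ 0 := sub_ne_zero.2 fun h =>
      hne (hA.strictMonoOn_below.injOn (Ioo_subset_Icc_self hy) (Ioo_subset_Icc_self hz) h)
    have hyz : y - z ≠ 0 := sub_ne_zero.2 hne
    have hwyz : w y - w z ≠ 0 := sub_ne_zero.2 hwne
    simp only [Pi.div_apply, comp_apply]
    rw [dslope_of_ne _ hwne, slope_def_field, slope_def_field, slope_def_field, hw y hy, hw z hz]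
    field_simp
  set ζ := fun z => p * z + q * w z
  set D := fun z => p + q * (sliceVol A z / sliceVol B (w z))
  set Φ := fun z => (p * rad (slice A z) + q * rad (slice B (w z))) ^ (k + 1) * D z
  have hDpos : ∀ z ∈ I, 0 < D z := fun z hz => by
    have := hA.slice_pos hz
    have := hB.slice_pos (hwmem z hz)
    positivity
  have hζd : ∀ z ∈ I, HasDerivWithinAt ζ (D z) I z := fun z hz => by
    refine ((((hasDerivAt_id z).const_mul p).add ((hwd z hz).const_mul q)).congr_deriv ?_).hasDerivWithinAt
    simp [D]
  have hζi : InjOn ζ I := StrictMonoOn.injOn fun z hz z' hz' hlt =>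
    add_lt_add (mul_lt_mul_of_pos_left hlt hp) (mul_lt_mul_of_pos_left (hmono hz hz' hlt) hq)
  have hprof : ∀ z ∈ I, sliceVol A z ≤ Φ z ∧ (Φ z = sliceVol A z → sliceVol A z = sliceVol B (w z)) := by
    intro z hz
    have h := profile_ge hp hq hpq (hA.rad_slice_pos hz) (hB.rad_slice_pos (hwmem z hz)) k
    simp only [← Solid.sliceVol_eq] at h
    exact ⟨h.1, fun he => by rw [Solid.sliceVol_eq, Solid.sliceVol_eq, h.2 he]⟩
  have hCc : IsCompact (p • A + q • B) := (hA.compact.smul p).add (hB.compact.smul q)
  have hge : ∫⁻ z in I, ENNReal.ofReal (Φ z) ≤ volume (p • A + q • B) := by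
    rw [volume_eq_lintegral_slice hCc.measurableSet]
    refine le_trans ?_ (setLIntegral_le_lintegral (ζ '' I) _)
    rw [lintegral_image_eq_lintegral_abs_deriv_mul measurableSet_Ioo hζd hζi]
    refine setLIntegral_mono' measurableSet_Ioo fun z hz => ?_
    rw [abs_of_pos (hDpos z hz), mul_comm, ENNReal.ofReal_mul (pow_nonneg
      (add_nonneg (mul_nonneg hp.le (rad_nonneg _)) (mul_nonneg hq.le (rad_nonneg _))) _)]
    have hrA := hA.rad_slice_pos hz
    have hrB := hB.rad_slice_pos (hwmem z hz)
    refine mul_le_mul' ?_ le_rfl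
    have hsub : p • slice A z + q • slice B (w z) ⊆ slice (p • A + q • B) (ζ z) := by
      rintro _ ⟨_, ⟨x, hx, rfl⟩, _, ⟨y, hy, rfl⟩, rfl⟩
      exact ⟨p • (x, z), smul_mem_smul_set hx, q • (y, w z), smul_mem_smul_set hy, by simp [ζ]⟩
    refine le_trans ?_ (measure_mono hsub)
    have hsc : IsCompact (p • slice A z + q • slice B (w z)) :=
      ((hA.isCompact_slice z).smul p).add ((hB.isCompact_slice (w z)).smul q)
    rw [← ENNReal.ofReal_toReal hsc.measure_lt_top.ne, ← rad_pow]
    refine ENNReal.ofReal_le_ofReal (pow_le_pow_left₀ (by positivity) ?_ _)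
    rw [← rad_smul (slice A z) hp.le, ← rad_smul (slice B (w z)) hq.le]
    exact rad_add_le ((hA.isCompact_slice z).smul p) ((hB.isCompact_slice (w z)).smul q)
      (by rw [rad_smul _ hp.le]; exact mul_pos hp hrA)
      (by rw [rad_smul _ hq.le]; exact mul_pos hq hrB)
  have hcΦ : ContinuousOn Φ I := by
    have hwc : ContinuousOn w I := fun z hz => (hwd z hz).continuousAt.continuousWithinAt
    refine ((((hA.continuousOn_rad).const_smul p).add
      ((hB.continuousOn_rad.comp hwc hwmem).const_smul q)).pow _).mul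
      (continuousOn_const.add (ContinuousOn.mul continuousOn_const ?_))
    exact ContinuousOn.div (fun z hz => (hA.continuousAt_sliceVol hz).continuousWithinAt)
      (fun z hz => ((hB.continuousAt_sliceVol (hwmem z hz)).comp
        (hwd z hz).continuousAt).continuousWithinAt) fun z hz => (hB.slice_pos (hwmem z hz)).ne'
  have hcf : ContinuousOn (sliceVol A) I := fun z hz =>
    (hA.continuousAt_sliceVol hz).continuousWithinAt
  have hVA : ∫⁻ z in I, ENNReal.ofReal (sliceVol A z) = volume A := by
    rw [← ofReal_integral_eq_lintegral_ofReal hA.integrable_sliceVol.integrableOn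
      (Eventually.of_forall fun z => ENNReal.toReal_nonneg), ← integral_Ioc_eq_integral_Ioo,
      ← intervalIntegral.integral_of_le hA.lo_lt_hi.le, ← below, hA.below_hi,
      ENNReal.ofReal_toReal hA.compact.measure_lt_top.ne]
  have hae : (fun z => ENNReal.ofReal (sliceVol A z)) =ᵐ[volume.restrict I]
      fun z => ENNReal.ofReal (Φ z) := by
    refine ae_eq_of_ae_le_of_lintegral_le ?_ (by rw [hVA]; exact hA.compact.measure_lt_top.ne)
      (hcΦ.aemeasurable measurableSet_Ioo).ennreal_ofReal
      ((hge.trans hC).trans (le_of_eq hVA.symm))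
    exact (ae_restrict_mem measurableSet_Ioo).mono fun z hz =>
      ENNReal.ofReal_le_ofReal (hprof z hz).1
  have heq : EqOn (sliceVol A) Φ I := by
    refine Measure.eqOn_open_of_ae_eq (μ := volume) ?_ isOpen_Ioo hcf hcΦ
    filter_upwards [hae, ae_restrict_mem measurableSet_Ioo] with z hz hzI
    exact (ENNReal.ofReal_eq_ofReal_iff ENNReal.toReal_nonneg
      ((hA.slice_pos hzI).le.trans (hprof z hzI).1)).1 hz
  have hfg : ∀ z ∈ I, sliceVol A z = sliceVol B (w z) := fun z hz => (hprof z hz).2 (heq hz).symm
  have hw1 : ∀ z ∈ I, HasDerivAt (fun t => w t - t) 0 z := fun z hz => by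
    have h := (hwd z hz).sub (hasDerivAt_id z)
    rw [← hfg z hz, div_self (hA.slice_pos hz).ne', sub_self] at h
    exact h
  obtain ⟨c, hwc⟩ : ∃ c, ∀ z ∈ I, w z = z + c := by
    obtain ⟨z0, hz0⟩ : I.Nonempty := nonempty_Ioo.2 hA.lo_lt_hi
    refine ⟨w z0 - z0, fun z hz => ?_⟩
    have := isOpen_Ioo.is_const_of_deriv_eq_zero (f := fun t => w t - t) isPreconnected_Ioo
      (fun t ht => (hw1 t ht).differentiableAt.differentiableWithinAt)
      (fun t ht => (hw1 t ht).deriv) hz hz0
    linarith
  have hshift : (fun z => z + c) '' I = Ioo (lo B) (hi B) := by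
    rw [← himage]; exact image_congr fun z hz => (hwc z hz).symm
  rw [show (fun z => z + c) '' I = Ioo (lo A + c) (hi A + c) from image_add_const_Ioo c _ _] at hshift
  have hlt : lo A + c < hi A + c := by linarith [hA.lo_lt_hi]
  have hlo : lo A + c = lo B := by
    have := congrArg sInf hshift
    rwa [csInf_Ioo hlt, csInf_Ioo hB.lo_lt_hi] at this
  have hhi : hi A + c = hi B := by
    have := congrArg sSup hshift
    rwa [csSup_Ioo hlt, csSup_Ioo hB.lo_lt_hi] at this
  refine ⟨c, hhi.symm, ?_⟩
  have hsl : ∀ᵐ z : ℝ, sliceVol B (z + c) = sliceVol A z := by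
    filter_upwards [Measure.ae_ne volume (lo A), Measure.ae_ne volume (hi A)] with z h1 h2
    by_cases hz : z ∈ Icc (lo A) (hi A)
    · have hzI : z ∈ I := ⟨lt_of_le_of_ne hz.1 (Ne.symm h1), lt_of_le_of_ne hz.2 h2⟩
      rw [hfg z hzI, hwc z hzI]
    · rw [hA.sliceVol_eq_zero hz, hB.sliceVol_eq_zero]
      rw [← hlo, ← hhi]
      exact fun h => hz ⟨by linarith [h.1], by linarith [h.2]⟩
  rw [(hB.integral_height (φ := fun z => z) continuous_id).2,
    (hA.integral_height (φ := fun z => z) continuous_id).2,
    ← hA.integral_sliceVol, ← integral_const_mul, ← integral_add (hA.integral_height (φ := fun z => z) continuous_id).1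
      (hA.integrable_sliceVol.const_mul c),
    ← integral_add_right_eq_self (fun z => z * sliceVol B z) c]
  refine integral_congr_ae ?_
  filter_upwards [hsl] with z hz
  rw [hz]
  ring

/-- Coordinates in which a given linear form is the height. -/
theorem exists_height (u : Pt (m + 1)) (hu : u ≠ 0) :
    ∃ (T : (Pt m × ℝ) ≃ₗ[ℝ] Pt (m + 1)) (c : ℝ), 0 < c ∧ (∀ p, u ⬝ᵥ T p = p.2) ∧
      ∀ S : Set (Pt m × ℝ), (volume (T '' S)).toReal = c * (volume S).toReal := by
  obtain ⟨j, hj⟩ := Function.ne_iff.1 hu
  simp only [Pi.zero_apply] at hj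
  set L : Pt (m + 1) →ₗ[ℝ] Pt m × ℝ :=
    { toFun := fun x => (fun i => x (j.succAbove i), u ⬝ᵥ x)
      map_add' := fun x y => by simp [Prod.ext_iff, funext_iff, dotProduct_add]
      map_smul' := fun a x => by simp [Prod.ext_iff, funext_iff, dotProduct_smul] }
  have hinj : Injective L := by
    refine (injective_iff_map_eq_zero L).2 fun x hx => ?_
    have h1 : ∀ i, x (j.succAbove i) = 0 := fun i => congrFun (congrArg Prod.fst hx) i
    have h2 : u ⬝ᵥ x = 0 := congrArg Prod.snd hx
    rw [dotProduct, Fin.sum_univ_succAbove _ j] at h2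
    simp only [h1, mul_zero, Finset.sum_const_zero, add_zero, mul_eq_zero, hj, false_or] at h2
    funext i
    rcases eq_or_ne i j with rfl | hij
    · exact h2
    · obtain ⟨i', rfl⟩ := Fin.exists_succAbove_eq hij
      exact h1 i'
  set T := (L.linearEquivOfInjective hinj (by simp)).symm
  obtain ⟨hc, hS⟩ := exists_factor ((snocLin m).symm.trans T)
  refine ⟨T, _, hc, fun p => ?_, fun S => ?_⟩
  · have h : L (T p) = p := (L.linearEquivOfInjective hinj (by simp)).apply_symm_apply p
    exact congrArg Prod.snd h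
  · rw [← volume_image_snocLin S, ← hS, ← image_comp]
    congr 2
    exact image_congr fun p _ => by simp

/-- Equality in the Brunn–Minkowski inequality: the bodies are homothetic. -/
theorem homothetic_of_rad_add {A B : Set (Pt (k + 2))} (hA : Cvx A) (hB : Cvx B)
    (he : rad (A + B) ≤ rad A + rad B) :
    ∃ v, B = (fun x => x + v) '' ((rad B / rad A) • A) := by
  set α := rad A
  set β := rad B
  have hα : 0 < α := rad_pos hA
  have hβ : 0 < β := rad_pos hB
  set A1 := (β / α) • A
  have hsm : ∀ {r : ℝ}, 0 < r → ∀ {K : Set (Pt (k + 2))}, Cvx K → Cvx (r • K) := fun {r} hr {K} hK =>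
    ⟨hK.compact.smul r, hK.convex.smul r, by simpa using (smul_mem_nhds_smul_iff₀ (x := (0 : Pt (k + 2))) hr.ne').2 hK.nhds⟩
  have hA1 : Cvx A1 := hsm (div_pos hβ hα) hA
  have hr1 : rad A1 = β := by
    rw [rad_smul A (div_nonneg hβ.le hα.le), div_mul_cancel₀ _ hα.ne']
  set p := α / (α + β)
  set q := β / (α + β)
  have hpq : p + q = 1 := by simp only [p, q]; field_simp
  have hcomb : rad (p • A1 + q • B) ≤ β := by
    have e : p • A1 + q • B = (β / (α + β)) • (A + B) := by
      rw [smul_add, smul_smul]
      congr 2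
      simp only [p]
      field_simp
    rw [e, rad_smul _ (by positivity), div_mul_eq_mul_div, div_le_iff₀ (by positivity)]
    exact mul_le_mul_of_nonneg_left he hβ.le
  set V := (volume A1).toReal
  have hV : 0 < V := hA1.volume_pos
  have hVB : (volume B).toReal = V := by
    simp only [V]; rw [← rad_pow, ← rad_pow, hr1]
  have hCle : (volume (p • A1 + q • B)).toReal ≤ V := by
    simp only [V]
    rw [← rad_pow, ← rad_pow, hr1]
    exact pow_le_pow_left₀ (rad_nonneg _) hcomb _
  set v : Pt (k + 2) := fun i => ((∫ x in B, x i) - ∫ x in A1, x i) / V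
  have hsupp : ∀ u, P227.Zono.supportVal B u = P227.Zono.supportVal A1 u + u ⬝ᵥ v := by
    intro u
    rcases eq_or_ne u 0 with rfl | hu
    · simp [P227.Zono.supportVal, hB.nonempty, hA1.nonempty]
    obtain ⟨T, c, hc, hTu, hT⟩ := exists_height u hu
    have hpre : ∀ {K : Set (Pt (k + 2))}, Cvx K → Solid (T.symm '' K) := fun {K} hK =>
      ⟨hK.compact.image T.symm.toLinearMap.continuous_of_finiteDimensional,
        hK.convex.linear_image T.symm.toLinearMap, by
          rw [show T.symm '' K = T.toContinuousLinearEquiv ⁻¹' K from T.symm.image_eq_preimage_symm K]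
          exact T.toContinuousLinearEquiv.continuous.continuousAt.preimage_mem_nhds
            (by simpa using hK.nhds)⟩
    have hback : ∀ K : Set (Pt (k + 2)), T '' (T.symm '' K) = K := fun K => by simp [image_image]
    have hvol : ∀ K : Set (Pt (k + 2)), (volume (T.symm '' K)).toReal = (volume K).toReal / c :=
      fun K => by
        have h := hT (T.symm '' K)
        rw [hback] at h
        rw [h, mul_div_cancel_left₀ _ hc.ne']
    have hcomm : T.symm '' (p • A1 + q • B) = p • (T.symm '' A1) + q • (T.symm '' B) := by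
      rw [image_add]
      simp only [← image_smul, image_image, map_smul]
    have hsA := hpre hA1
    have hsB := hpre hB
    obtain ⟨d, hd1, hd2⟩ := height_shift hsA hsB (by rw [hvol, hvol, hVB])
      (by positivity : 0 < p) (by positivity : 0 < q) hpq (by
        have hfin : volume (T.symm '' (p • A1 + q • B)) ≠ ⊤ :=
          (((hA1.compact.smul p).add (hB.compact.smul q)).image
            T.symm.toLinearMap.continuous_of_finiteDimensional).measure_lt_top.ne
        rw [← hcomm, ← ENNReal.toReal_le_toReal hfin hsA.compact.measure_lt_top.ne, hvol, hvol]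
        exact div_le_div_of_nonneg_right hCle hc.le)
    have hhi : ∀ K : Set (Pt (k + 2)), hi (T.symm '' K) = P227.Zono.supportVal K u := fun K => by
      rw [hi, P227.Zono.supportVal, ← image_comp]
      congr 1
      refine image_congr fun x _ => ?_
      show (T.symm x).2 = _
      rw [← hTu, LinearEquiv.apply_symm_apply]
    rw [hhi, hhi] at hd1
    rw [hd1]
    congr 1
    have hint : ∀ {K : Set (Pt (k + 2))}, IsCompact K →
        ∫ x in T.symm '' K, x.2 = (∫ x in K, u ⬝ᵥ x) / c := by
      intro K hK
      set S : Pt (k + 2) →ₗ[ℝ] Pt (k + 2) := ((snocLin (k + 1)).symm.trans T).toLinearMap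
      set K' := T.symm '' K
      have hK' : IsCompact K' := hK.image T.symm.toLinearMap.continuous_of_finiteDimensional
      set K'' := snocLin (k + 1) '' K'
      have hSK : (LinearMap.toContinuousLinearMap S) '' K'' = K := by
        rw [LinearMap.coe_toContinuousLinearMap', ← image_comp]
        refine Eq.trans (image_congr fun p _ => ?_) (hback K)
        simp [S]
      have hscale : |LinearMap.det S| = c := by
        have h := hT (T.symm '' A1)
        have e : T '' (T.symm '' A1) = S '' (snocLin (k + 1) '' (T.symm '' A1)) := by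
          simp only [image_image]
          exact image_congr fun p _ => by simp [S]
        rw [e, Measure.addHaar_image_linearMap, ENNReal.toReal_mul,
          ENNReal.toReal_ofReal (abs_nonneg _), volume_image_snocLin] at h
        exact mul_right_cancel₀ (by rw [hvol]; positivity) h
      have hSi : Injective S := ((snocLin (k + 1)).symm.trans T).injective
      conv_rhs => rw [← hSK]
      rw [integral_image_eq_integral_abs_det_fderiv_smul volume
        (hK'.image (continuous_snocLin _)).measurableSet
        (f' := fun _ => LinearMap.toContinuousLinearMap S)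
        (fun x _ => (LinearMap.toContinuousLinearMap S).hasFDerivWithinAt) hSi.injOn]
      simp only [ContinuousLinearMap.det, LinearMap.coe_toContinuousLinearMap', smul_eq_mul,
        LinearMap.coe_toContinuousLinearMap, hscale]
      rw [integral_const_mul, mul_div_cancel_left₀ _ hc.ne',
        (measurePreserving_snocLin (k + 1)).setIntegral_image_emb
          ((snocLin (k + 1)).toContinuousLinearEquiv.toHomeomorph).measurableEmbedding]
      congr 1
      funext p
      simp [S, hTu]
    rw [hint hB.compact, hint hA1.compact, hvol] at hd2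
    have hlin : ∀ {K : Set (Pt (k + 2))}, IsCompact K →
        ∫ x in K, u ⬝ᵥ x = ∑ i, u i * ∫ x in K, x i := by
      intro K hK
      simp only [dotProduct, ← integral_const_mul]
      refine integral_finsetSum _ fun i _ => ?_
      exact ((continuous_const (y := u i)).mul (continuous_apply i)).continuousOn.integrableOn_compact hK
    rw [hlin hB.compact, hlin hA1.compact] at hd2
    have : u ⬝ᵥ v = ((∑ i, u i * ∫ x in B, x i) - ∑ i, u i * ∫ x in A1, x i) / V := by
      rw [← Finset.sum_sub_distrib, Finset.sum_div, dotProduct]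
      exact Finset.sum_congr rfl fun i _ => by simp only [v]; ring
    rw [this, eq_div_iff hV.ne']
    field_simp at hd2
    linarith
  refine ⟨v, Subset.antisymm (fun z hz => ?_) ?_⟩
  · refine ⟨z - v, ?_, sub_add_cancel z v⟩
    have h := mem_smul_of_dot_le hA1.compact hA1.convex hA1.nonempty (r := 1) (z := z - v)
      fun u => by
        rw [one_mul, dotProduct_sub]
        linarith [le_supportVal hB.compact hz u, hsupp u]
    rwa [one_smul] at h
  · rintro _ ⟨x, hx, rfl⟩
    have h := mem_smul_of_dot_le hB.compact hB.convex hB.nonempty (r := 1) (z := x + v) fun u => by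
      rw [one_mul, dotProduct_add, hsupp u]
      linarith [le_supportVal hA1.compact hx u]
    rwa [one_smul] at h

/-- Equality of the ratios forces the second projection body to be a homothet. -/
theorem homothetic_of_ratio_eq {K : Set (Pt (k + 2))} (hK : Cvx K)
    (h : ratio K ≤ ratio (gainBody K)) :
    ∃ (c : ℝ) (v : Pt (k + 2)), 0 < c ∧ gainBody (gainBody K) = (fun x => x + v) '' (c • K) := by
  have hH := hK.cvx_gainBody.cvx_gainBody
  obtain ⟨v, hv⟩ := homothetic_of_rad_add hK hH (rad_add_of_ratio_eq hK h).le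
  exact ⟨rad (gainBody (gainBody K)) / rad K, v, div_pos (rad_pos hH) (rad_pos hK), hv⟩

end Vale.Agent.P237.Full
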