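import Vale.Agent.P237.Pyramid
import Vale.Agent.P227.Zono.Gauge

/-!
# P237: the gain as an integral over the body of the gauge's gradient
-/

namespace Vale.Agent.P237.Full

open MeasureTheory Set Function Topology Filter
open scoped ENNReal NNReal Pointwise

variable {k : ℕ}

/-- The integral of the speed of a convex function between two points, with its minimum between. -/
theorem convex_var {φ : ℝ → ℝ} (hφ : ConvexOn ℝ univ φ) {C : ℝ≥0} (hl : LipschitzWith C φ)
    {a b t0 : ℝ} (h0 : t0 ∈ Icc a b) (hmin : ∀ t ∈ Icc a b, φ t0 ≤ φ t) :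
    ∫ t in a..b, |deriv φ t| = φ a + φ b - 2 * φ t0 := by
  have h1 : AbsolutelyContinuousOnInterval φ a t0 :=
    hl.lipschitzOnWith.absolutelyContinuousOnInterval
  have h2 : AbsolutelyContinuousOnInterval φ t0 b :=
    hl.lipschitzOnWith.absolutelyContinuousOnInterval
  have hne : ∀ᵐ t : ℝ, t ≠ t0 := Measure.ae_ne volume t0
  have e1 : ∫ t in a..t0, |deriv φ t| = ∫ t in a..t0, -deriv φ t := by
    refine intervalIntegral.integral_congr_ae ?_
    filter_upwards [hne] with t ht hmem
    rw [uIoc_of_le h0.1] at hmem
    have hlt : t < t0 := lt_of_le_of_ne hmem.2 ht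
    refine abs_of_nonpos ?_
    by_cases hd : DifferentiableAt ℝ φ t
    · refine (hφ.deriv_le_slope (mem_univ t) (mem_univ t0) hlt hd).trans ?_
      rw [slope_def_field]
      exact div_nonpos_of_nonpos_of_nonneg
        (sub_nonpos.2 (hmin t ⟨hmem.1.le, hmem.2.trans h0.2⟩)) (by linarith)
    · rw [deriv_zero_of_not_differentiableAt hd]
  have e2 : ∫ t in t0..b, |deriv φ t| = ∫ t in t0..b, deriv φ t := by
    refine intervalIntegral.integral_congr_ae (Eventually.of_forall fun t hmem => ?_)
    rw [uIoc_of_le h0.2] at hmem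
    refine abs_of_nonneg ?_
    by_cases hd : DifferentiableAt ℝ φ t
    · refine le_trans ?_ (hφ.slope_le_deriv (mem_univ t0) (mem_univ t) hmem.1 hd)
      rw [slope_def_field]
      exact div_nonneg (sub_nonneg.2 (hmin t ⟨h0.1.trans hmem.1.le, hmem.2⟩)) (by linarith [hmem.1])
    · rw [deriv_zero_of_not_differentiableAt hd]
  rw [← intervalIntegral.integral_add_adjacent_intervals h1.intervalIntegrable_deriv.abs
    h2.intervalIntegrable_deriv.abs, e1, e2, intervalIntegral.integral_neg,
    h1.integral_deriv_eq_sub, h2.integral_deriv_eq_sub]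
  ring

theorem gauge_image {E F : Type*} [AddCommGroup E] [Module ℝ E] [AddCommGroup F] [Module ℝ F]
    (T : E ≃ₗ[ℝ] F) (A : Set E) (x : E) : gauge (T '' A) (T x) = gauge A x := by
  have hr : ∀ r : ℝ, T x ∈ r • (T '' A) ↔ x ∈ r • A := fun r => by
    rw [← image_smul_set, T.injective.mem_set_image]
  simp only [gauge_def, hr]

theorem gauge_le_iff {E : Type*} [NormedAddCommGroup E] [NormedSpace ℝ E] {A : Set E}
    (hA : IsCompact A) (hAc : Convex ℝ A) (h0 : A ∈ 𝓝 (0 : E)) {s : ℝ} (hs : 0 < s) {x : E} :
    gauge A x ≤ s ↔ x ∈ s • A := by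
  rw [mem_smul_set_iff_inv_smul_mem₀ hs.ne', ← hA.isClosed.closure_eq,
    ← gauge_le_one_iff_mem_closure hAc h0, gauge_smul_of_nonneg (inv_nonneg.2 hs.le), smul_eq_mul,
    inv_mul_le_iff₀ hs, mul_one, hA.isClosed.closure_eq]

theorem integral_gauge_vertical {A : Set (Pt k × ℝ)} (hA : IsCompact A) (hAc : Convex ℝ A)
    (h0 : A ∈ 𝓝 (0 : Pt k × ℝ)) :
    ((k : ℝ) + 1) * ∫ p in A, |fderiv ℝ (gauge A) p (0, 1)|
      = 2 * (volume (Prod.fst '' A)).toReal := by
  classical
  set g := gauge A
  obtain ⟨C, hC⟩ := hAc.lipschitz_gauge h0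
  set D : Pt k × ℝ → ℝ := fun p => |fderiv ℝ g p (0, 1)|
  have hDm : Measurable D := (measurable_fderiv_apply_const ℝ g _).abs
  have hle1 : ∀ {x : Pt k × ℝ}, g x ≤ 1 ↔ x ∈ A := fun {x} => by
    simpa using gauge_le_iff hA hAc h0 one_pos (x := x)
  have : (volume : Measure (Pt k × ℝ)).IsAddHaarMeasure :=
    Measure.prod.instIsAddHaarMeasure _ _
  have hbd : IntegrableOn D A := by
    refine Measure.integrableOn_of_bounded (M := (C : ℝ) * ‖((0, 1) : Pt k × ℝ)‖)
      hA.measure_lt_top.ne hDm.aestronglyMeasurable (Eventually.of_forall fun p => ?_)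
    rw [Real.norm_eq_abs, abs_abs]
    exact (ContinuousLinearMap.le_opNorm _ _).trans
      (mul_le_mul_of_nonneg_right (norm_fderiv_le_of_lipschitz ℝ hC) (norm_nonneg _))
  have hint : Integrable (A.indicator D) ((volume : Measure (Pt k)).prod (volume : Measure ℝ)) :=
    (integrable_indicator_iff hA.measurableSet).2 hbd
  set P := Prod.fst '' A
  have hP : IsCompact P := hA.image continuous_fst
  set S := {q : Pt k × ℝ | 0 ≤ q.2 ∧ q.2 ≤ 1 ∧ q.1 ∈ (1 - q.2) • P}
  have hSc : IsCompact S := by
    have hcl : IsClosed {q : (Pt k × ℝ) × ℝ | 0 ≤ q.2 ∧ q.2 ≤ 1} :=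
      (isClosed_le continuous_const continuous_snd).inter
        (isClosed_le continuous_snd continuous_const)
    have : S = (fun q : Pt k × ℝ => ((1 - q.2) • q.1, q.2)) '' (P ×ˢ Icc 0 1) := by
      ext ⟨y, s⟩
      constructor
      · rintro ⟨hs0, hs1, w, hw, hwe⟩
        exact ⟨(w, s), ⟨hw, hs0, hs1⟩, by simpa using hwe⟩
      · rintro ⟨⟨w, s'⟩, ⟨hw, hs'⟩, he⟩
        simp only [Prod.mk.injEq] at he
        obtain ⟨rfl, rfl⟩ := he
        exact ⟨hs'.1, hs'.2, w, hw, rfl⟩
    rw [this]
    exact (hP.prod isCompact_Icc).image (by fun_prop)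
  -- each line
  have hline : ∀ᵐ y : Pt k,
      ∫ t, A.indicator D (y, t) = 2 * (volume (fib S y)).toReal := by
    have hd : ∀ᵐ y : Pt k, ∀ᵐ t : ℝ, DifferentiableAt ℝ g (y, t) :=
      Measure.ae_ae_of_ae_prod (by rw [← Measure.volume_eq_prod]; exact hC.ae_differentiableAt)
    filter_upwards [hd] with y hy
    by_cases hyP : y ∈ P
    · obtain ⟨⟨y', t1⟩, ht1, rfl⟩ := hyP
      set φ := fun t : ℝ => g (y', t)
      have hφl : LipschitzWith C φ := by
        have := hC.comp (LipschitzWith.prodMk_left (α := Pt k) (β := ℝ) y')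
        rwa [mul_one] at this
      have hφc : ConvexOn ℝ univ φ := by
        refine ⟨convex_univ, fun t _ s _ p q hp hq hpq => ?_⟩
        have e : ((y', p • t + q • s) : Pt k × ℝ) = p • (y', t) + q • (y', s) := by
          rw [Prod.smul_mk, Prod.smul_mk, Prod.mk_add_mk, ← add_smul, hpq, one_smul]
        show g (y', p • t + q • s) ≤ p • g (y', t) + q • g (y', s)
        rw [e]
        refine (gauge_add_le hAc (absorbent_nhds_zero h0) _ _).trans (le_of_eq ?_)
        rw [gauge_smul_of_nonneg hp, gauge_smul_of_nonneg hq]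
      have hne : (fib A y').Nonempty := ⟨t1, ht1⟩
      have hI := eq_interval (isCompact_fib hA y') (convex_fib hAc y') hne
      set a := sInf (fib A y')
      set b := sSup (fib A y')
      have hab : a ≤ b := by
        have : t1 ∈ fib A y' := ht1
        rw [hI] at this
        exact this.1.trans this.2
      have hmem : ∀ t, t ∈ Icc a b ↔ φ t ≤ 1 := fun t => by
        rw [← hI]; exact hle1.symm
      have hcont : Continuous φ := hφl.continuous
      have hend : φ a = 1 ∧ φ b = 1 := by
        constructor
        · refine le_antisymm ((hmem a).1 ⟨le_rfl, hab⟩) (le_of_not_gt fun h => ?_)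
          obtain ⟨t, ht, htlt⟩ := (((hcont.continuousAt.eventually_lt_const h).filter_mono
            nhdsWithin_le_nhds).and
            (self_mem_nhdsWithin : ∀ᶠ t in 𝓝[<] a, t ∈ Iio a)).exists
          exact absurd ((hmem t).2 ht.le).1 (not_le.2 htlt)
        · refine le_antisymm ((hmem b).1 ⟨hab, le_rfl⟩) (le_of_not_gt fun h => ?_)
          obtain ⟨t, ht, htlt⟩ := (((hcont.continuousAt.eventually_lt_const h).filter_mono
            nhdsWithin_le_nhds).and
            (self_mem_nhdsWithin : ∀ᶠ t in 𝓝[>] b, t ∈ Ioi b)).exists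
          exact absurd ((hmem t).2 ht.le).2 (not_le.2 htlt)
      obtain ⟨t0, ht0, hmin⟩ := isCompact_Icc.exists_isMinOn (nonempty_Icc.2 hab)
        hcont.continuousOn
      have hφ0 : 0 ≤ φ t0 := gauge_nonneg _
      have hφ1 : φ t0 ≤ 1 := (hmem t0).1 ht0
      have hfib : fib S y' = Icc 0 (1 - φ t0) := by
        ext s
        constructor
        · rintro ⟨hs0, hs1, hw⟩
          refine ⟨hs0, ?_⟩
          rcases hs1.lt_or_eq with h | h
          · obtain ⟨w, ⟨⟨w', r⟩, hwA, rfl⟩, hwe⟩ := hw
            simp only at hwe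
            have hp : ((y', (1 - s) * r) : Pt k × ℝ) ∈ (1 - s) • A :=
              ⟨(w', r), hwA, by simp [← hwe]⟩
            have hg : φ ((1 - s) * r) ≤ 1 - s :=
              (gauge_le_iff hA hAc h0 (by linarith)).2 hp
            have := hmin ((hmem _).2 (hg.trans (by linarith [hs0])))
            simp only [mem_ofPred_eq] at this
            linarith
          · simp only at h
            subst h
            have hy0 : y' = 0 := by
              obtain ⟨w, -, hwe⟩ := hw
              simpa using hwe.symm
            have h00 : φ 0 = 0 := by simp [φ, g, hy0, gauge_zero, Prod.mk_zero_zero]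
            have := hmin ((hmem 0).2 (by rw [h00]; norm_num))
            simp only [mem_ofPred_eq] at this
            linarith
        · intro hs
          refine ⟨hs.1, by linarith [hs.2], ?_⟩
          rcases eq_or_lt_of_le (show φ t0 ≤ 1 - s by linarith [hs.2]) with h | h
          · rcases hφ0.lt_or_eq with h' | h'
            · obtain ⟨⟨w, r⟩, hwA, hwe⟩ := (gauge_le_iff hA hAc h0 (h ▸ h')).1 h.le
              exact ⟨w, ⟨_, hwA, rfl⟩, congrArg Prod.fst hwe⟩
            · obtain ⟨B, hB⟩ := hA.isBounded.exists_norm_le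
              have hz : ((y', t0) : Pt k × ℝ) = 0 := by
                by_contra hz
                have : 0 < gauge A (y', t0) := (gauge_pos (absorbent_nhds_zero h0)
                  (NormedSpace.isVonNBounded_iff _ |>.2 hA.isBounded)).2 hz
                exact this.ne h'
              refine ⟨0, ⟨0, mem_of_mem_nhds h0, rfl⟩, ?_⟩
              simp [show y' = 0 from congrArg Prod.fst hz]
          · obtain ⟨⟨w, r⟩, hwA, hwe⟩ :=
              (gauge_le_iff hA hAc h0 (lt_of_le_of_lt hφ0 h)).1 h.le
            exact ⟨w, ⟨_, hwA, rfl⟩, congrArg Prod.fst hwe⟩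
      rw [hfib, Real.volume_Icc, sub_zero, ENNReal.toReal_ofReal (by linarith)]
      have hI' : (fun t => A.indicator D (y', t)) = (Icc a b).indicator fun t => D (y', t) := by
        funext t
        rw [← hI]
        rfl
      rw [hI', integral_indicator measurableSet_Icc, integral_Icc_eq_integral_Ioc,
        ← intervalIntegral.integral_of_le hab]
      have hDd : ∫ t in a..b, D (y', t) = ∫ t in a..b, |deriv φ t| := by
        refine intervalIntegral.integral_congr_ae ?_
        filter_upwards [hy] with t ht _
        have h := ht.hasFDerivAt.comp_hasDerivAt t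
          ((hasDerivAt_const t y').prodMk (hasDerivAt_id t))
        exact congrArg abs h.deriv.symm
      rw [hDd, convex_var hφc hφl ht0 (fun t ht => hmin ht), hend.1, hend.2]
      ring
    · have h1 : ∀ t, A.indicator D (y, t) = 0 := fun t =>
        indicator_of_notMem (fun h => hyP ⟨_, h, rfl⟩) _
      have h2 : fib S y = ∅ := eq_empty_of_forall_notMem fun s hs => by
        obtain ⟨hs0, hs1, w, ⟨⟨w', r⟩, hwA, rfl⟩, hwe⟩ := hs
        have hA0 : (0 : Pt k × ℝ) ∈ A := mem_of_mem_nhds h0
        have := hAc hwA hA0 (a := 1 - s) (b := s) (by linarith) hs0 (by ring)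
        exact hyP ⟨_, this, by simpa using hwe⟩
      simp [h1, h2]
  have hslice : (volume S).toReal = (volume P).toReal / (k + 1) := by
    rw [volume_eq_lintegral_slice hSc.measurableSet]
    have hs : ∀ s : ℝ, volume (slice S s)
        = (Icc (0 : ℝ) 1).indicator (fun s => ENNReal.ofReal ((1 - s) ^ k) * volume P) s := by
      intro s
      by_cases h : s ∈ Icc (0 : ℝ) 1
      · have : slice S s = (1 - s) • P := by
          ext y
          exact ⟨fun hy => hy.2.2, fun hy => ⟨h.1, h.2, hy⟩⟩
        rw [indicator_of_mem h, this, Measure.addHaar_smul, Module.finrank_fin_fun,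
          abs_of_nonneg (by have := h.2; positivity)]
      · have : slice S s = ∅ := eq_empty_of_forall_notMem fun y hy => h ⟨hy.1, hy.2.1⟩
        rw [indicator_of_notMem h, this, measure_empty]
    simp only [hs]
    rw [lintegral_indicator measurableSet_Icc, lintegral_mul_const _ (by fun_prop),
      ← ofReal_integral_eq_lintegral_ofReal, ENNReal.toReal_mul, ENNReal.toReal_ofReal]
    · have : ∫ s in Icc (0 : ℝ) 1, (1 - s) ^ k = 1 / (k + 1) := by
        rw [integral_Icc_eq_integral_Ioc, ← intervalIntegral.integral_of_le zero_le_one,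
          intervalIntegral.integral_comp_sub_left (fun s => s ^ k), integral_pow]
        simp
      rw [this]
      ring
    · exact setIntegral_nonneg measurableSet_Icc fun s hs => by have := hs.2; positivity
    · exact (by fun_prop : Continuous fun s : ℝ => (1 - s) ^ k).continuousOn.integrableOn_Icc
    · filter_upwards [ae_restrict_mem measurableSet_Icc] with s hs
      have := hs.2
      positivity
  have hmain : ∫ p in A, D p = 2 * (volume S).toReal := by
    rw [← integral_indicator hA.measurableSet, Measure.volume_eq_prod, integral_prod _ hint,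
      integral_congr_ae hline, integral_const_mul, ← Measure.volume_eq_prod]
    congr 1
    rw [volume_eq_lintegral_fib hSc.measurableSet]
    exact integral_toReal (measurable_measure_prodMk_left hSc.measurableSet).aemeasurable
      (Eventually.of_forall fun y => (isCompact_fib hSc y).measure_lt_top)
  rw [hmain, hslice]
  field_simp

/-- The gain is half the dimension times the integral of the gauge's slope over the body. -/
theorem gain_eq_integral {K : Set (Pt (k + 1))} (hK : IsCompact K) (hKc : Convex ℝ K)
    (h0 : K ∈ 𝓝 (0 : Pt (k + 1))) (u : Pt (k + 1)) :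
    gain K u = ((k : ℝ) + 1) / 2 * ∫ x in K, |P227.Zono.normalAt K x ⬝ᵥ u| := by
  simp only [P227.Zono.normalAt_dot]
  rcases eq_or_ne u 0 with rfl | hu
  · simp [gain_zero]
  obtain ⟨T, c, hc, hT1, hT⟩ := exists_vertical hu
  set Tc := T.toContinuousLinearEquiv
  set A := T.symm '' K
  have hA : IsCompact A := hK.image T.symm.toLinearMap.continuous_of_finiteDimensional
  have hAc : Convex ℝ A := hKc.linear_image T.symm.toLinearMap
  have hA0 : A ∈ 𝓝 (0 : Pt k × ℝ) := by
    rw [show A = Tc ⁻¹' K from T.symm.image_eq_preimage_symm K]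
    exact Tc.continuous.continuousAt.preimage_mem_nhds (by simpa using h0)
  have hTA : T '' A = K := by simp [A, image_image]
  have hg : gauge A = gauge K ∘ Tc := by
    funext p
    show _ = gauge K (T p)
    rw [← hTA, gauge_image]
  have hgain : gain K u = c * (volume (Prod.fst '' A)).toReal := by
    conv_lhs => rw [← hTA, ← hT1]
    rw [gain_image T hT, gain_vertical hA hAc zero_le_one, one_mul]
  set S : Pt (k + 1) →ₗ[ℝ] Pt (k + 1) := ((snocLin k).symm.trans T).toLinearMap
  set B := snocLin k '' A
  have hB : MeasurableSet B := (hA.image (continuous_snocLin k)).measurableSet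
  have hSB : S '' B = K := by
    rw [← hTA, ← image_comp]
    refine image_congr fun p _ => ?_
    simp [S]
  have hSi : Injective S := ((snocLin k).symm.trans T).injective
  have hscale : |LinearMap.det S| = c := by
    have hV : 0 < (volume A).toReal := ENNReal.toReal_pos
      (ne_of_gt ((isOpen_interior.measure_pos volume ⟨0, mem_interior_iff_mem_nhds.2 hA0⟩).trans_le
        (measure_mono interior_subset))) hA.measure_lt_top.ne
    have := hT A
    rw [hTA, ← hSB, Measure.addHaar_image_linearMap, ENNReal.toReal_mul,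
      ENNReal.toReal_ofReal (abs_nonneg _), volume_image_snocLin] at this
    exact mul_right_cancel₀ hV.ne' this
  have key : ∫ x in K, |fderiv ℝ (gauge K) x u| = c * ∫ p in A, |fderiv ℝ (gauge A) p (0, 1)| := by
    have hSK : ∫ x in K, |fderiv ℝ (gauge K) x u|
        = ∫ x in LinearMap.toContinuousLinearMap S '' B, |fderiv ℝ (gauge K) x u| := by
      rw [LinearMap.coe_toContinuousLinearMap', hSB]
    rw [hSK, integral_image_eq_integral_abs_det_fderiv_smul volume hB
      (f' := fun _ => LinearMap.toContinuousLinearMap S)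
      (fun x _ => (LinearMap.toContinuousLinearMap S).hasFDerivWithinAt) hSi.injOn]
    simp only [ContinuousLinearMap.det, LinearMap.coe_toContinuousLinearMap', smul_eq_mul,
      LinearMap.coe_toContinuousLinearMap, hscale]
    rw [integral_const_mul, (measurePreserving_snocLin k).setIntegral_image_emb
      ((snocLin k).toContinuousLinearEquiv.toHomeomorph).measurableEmbedding]
    congr 2
    funext p
    rw [hg, ContinuousLinearEquiv.comp_right_fderiv]
    simp [S, Tc, hT1]
  rw [hgain, key, show ((k : ℝ) + 1) / 2 * (c * ∫ p in A, |fderiv ℝ (gauge A) p (0, 1)|)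
    = c * ((((k : ℝ) + 1) * ∫ p in A, |fderiv ℝ (gauge A) p (0, 1)|) / 2) by ring,
    integral_gauge_vertical hA hAc hA0]
  ring

end Vale.Agent.P237.Full
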