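import Vale.Agent.P237.Full.Min

/-!
# P237: the minimiser in three-space
-/

namespace Vale.Agent.P237.Full

open MeasureTheory Set Function
open scoped Pointwise

theorem exists_minimiser : ∃ K : Set (Pt 3), P227.Zono.Body K ∧
    (∀ L : Set (Pt 3), Cvx L → ratio K ≤ ratio L) :=
  exists_min 2

/-- Equality in the class reduction (no symmetry assumed). -/
theorem ratio_eq_homothetic {K : Set (Pt 3)} (hK : Cvx K) (h : ratio K ≤ ratio (gainBody K)) :
    ∃ (r : ℝ) (a : Pt 3), 0 < r ∧ K = (fun x => r • x + a) '' gainBody (gainBody K) := by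
  obtain ⟨c, v, hc, he⟩ := homothetic_of_ratio_eq (k := 1) hK h
  refine ⟨c⁻¹, -(c⁻¹ • v), inv_pos.2 hc, ?_⟩
  rw [he, ← image_smul, image_image, image_image]
  conv_lhs => rw [← image_id' K]
  refine image_congr fun x _ => ?_
  rw [smul_add, inv_smul_smul₀ hc.ne']
  abel

theorem minimiser_fixed {K : Set (Pt 3)} (hK : P227.Zono.Body K)
    (hmin : ∀ L : Set (Pt 3), Cvx L → ratio K ≤ ratio L) :
    ∃ c : ℝ, (∀ u, gain (gainBody K) u = c * P227.Zono.supportVal K u) ∧
      (volume (gainBody K)).toReal = c * (volume K).toReal := by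
  obtain ⟨c, -, -, h1, h2⟩ := minimiser_structure (k := 1) hK hmin
  exact ⟨c, h2, h1⟩

end Vale.Agent.P237.Full
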