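import Vale.Agent.P237.Full.Basic

/-!
# P237: Minkowski's inequality against zonoids; the projection body does not raise the ratio
-/

namespace Vale.Agent.P237.Full

open MeasureTheory Set Function Topology Filter
open scoped ENNReal NNReal Pointwise

variable {m : ℕ} {K L G : Set (Pt (m + 1))}

/-- The first mixed volume. -/
noncomputable def mixedVol (K G : Set (Pt (m + 1))) : ℝ :=
  ∫ x in K, P227.Zono.supportVal G (P227.Zono.normalAt K x)

/-- The radius of a volume: its root of order the dimension. -/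
noncomputable def rad (K : Set (Pt (m + 1))) : ℝ :=
  (volume K).toReal ^ (((m + 1 : ℕ) : ℝ)⁻¹)

theorem rad_nonneg (K : Set (Pt (m + 1))) : 0 ≤ rad K :=
  Real.rpow_nonneg ENNReal.toReal_nonneg _

theorem rad_pow (K : Set (Pt (m + 1))) : rad K ^ (m + 1) = (volume K).toReal :=
  Real.rpow_inv_natCast_pow ENNReal.toReal_nonneg (Nat.succ_ne_zero m)

theorem rad_smul (K : Set (Pt (m + 1))) {r : ℝ} (hr : 0 ≤ r) : rad (r • K) = r * rad K := by
  rw [rad, Measure.addHaar_smul, Module.finrank_fin_fun, abs_of_nonneg (pow_nonneg hr _),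
    ENNReal.toReal_mul, ENNReal.toReal_ofReal (pow_nonneg hr _),
    Real.mul_rpow (pow_nonneg hr _) ENNReal.toReal_nonneg,
    Real.pow_rpow_inv_natCast hr (Nat.succ_ne_zero m), rad]

/-- The Brunn–Minkowski inequality in root form. -/
theorem rad_add_le {A B : Set (Pt (m + 1))} (hA : IsCompact A) (hB : IsCompact B)
    (hA0 : 0 < rad A) (hB0 : 0 < rad B) : rad A + rad B ≤ rad (A + B) := by
  set α := rad A
  set β := rad B
  set p := α / (α + β)
  set q := β / (α + β)
  have hp : 0 < p := by positivity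
  have hq : 0 < q := by positivity
  have hpq : p + q = 1 := by simp only [p, q]; field_simp
  have hbm := P227.Zono.brunn_minkowski (hA.smul α⁻¹) (hB.smul β⁻¹) hp hq hpq
  have hunit : ∀ (S : Set (Pt (m + 1))), 0 < rad S → (volume ((rad S)⁻¹ • S)).toReal = 1 := by
    intro S hS
    rw [← rad_pow, rad_smul S (inv_nonneg.2 hS.le), inv_mul_cancel₀ hS.ne', one_pow]
  have hfin := (((hA.smul α⁻¹).smul p).add ((hB.smul β⁻¹).smul q))
  have h := ENNReal.toReal_mono hfin.measure_lt_top.ne hbm
  rw [ENNReal.toReal_mul, ← ENNReal.toReal_rpow, ← ENNReal.toReal_rpow, hunit A hA0, hunit B hB0,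
    Real.one_rpow, Real.one_rpow, one_mul] at h
  have e : p • α⁻¹ • A + q • β⁻¹ • B = (α + β)⁻¹ • (A + B) := by
    rw [smul_smul, smul_smul, smul_add]
    congr 2 <;> simp only [p, q] <;> field_simp
  rw [e, ← rad_pow, rad_smul _ (by positivity)] at h
  have h1 : (1 : ℝ) ≤ (α + β)⁻¹ * rad (A + B) := by
    by_contra hc
    exact absurd h (not_le.2 (pow_lt_one₀ (mul_nonneg (by positivity) (rad_nonneg _))
      (not_le.1 hc) (Nat.succ_ne_zero m)))
  rwa [le_inv_mul_iff₀ (by positivity), mul_one] at h1

theorem rad_pos (hK : Cvx K) : 0 < rad K :=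
  Real.rpow_pos_of_pos hK.volume_pos _

theorem area_eq_gain (hK : Cvx K) (v : Pt (m + 1)) : P227.Zono.area v K = gain K v := by
  have e : K + segment ℝ (-v) v = (fun x => x + -v) '' swept K ((2 : ℝ) • v) := by
    ext z
    constructor
    · rintro ⟨x, hx, y, hy, rfl⟩
      obtain ⟨t, ht, rfl⟩ := P227.Zono.mem_seg.1 hy
      rw [abs_le] at ht
      refine ⟨x + ((1 + t) / 2) • (2 : ℝ) • v, ⟨(x, (1 + t) / 2), ⟨hx, by linarith [ht.1],
        by linarith [ht.2]⟩, rfl⟩, ?_⟩
      module
    · rintro ⟨_, ⟨⟨x, t⟩, ⟨hx, ht⟩, rfl⟩, rfl⟩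
      refine ⟨x, hx, (2 * t - 1) • v, P227.Zono.mem_seg.2 ⟨2 * t - 1, ?_, rfl⟩, by module⟩
      rw [abs_le]
      constructor <;> linarith [ht.1, ht.2]
  rw [P227.Zono.area, e, volume_translate, ← gain, hK.gain_homog v two_pos.le]
  ring

theorem mixedVol_self (hK : Cvx K) : mixedVol K K = (volume K).toReal := by
  rw [mixedVol, setIntegral_congr_ae hK.compact.measurableSet
    (hK.supportVal_normal.mono fun x hx _ => hx), setIntegral_const, smul_eq_mul, mul_one]
  rfl

/-- The volume of a sum with a small multiple of a zonoid. -/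
theorem volume_add_le (hK : Cvx K) (hG : Cvx G) (hz : Zd G) : ∃ C : ℝ, 0 ≤ C ∧ ∀ t : ℝ, 0 < t →
    (volume (K + t • G)).toReal ≤ (volume K).toReal
      + ((m : ℝ) + 1) * t * (1 + t * C) ^ m * mixedVol K G := by
  have habs : Absorbent ℝ K := absorbent_nhds_zero hK.nhds
  obtain ⟨M, hM⟩ := hG.compact.exists_bound_of_continuousOn
    (continuous_gauge hK.convex hK.nhds).continuousOn
  set C := max M 0 + 1
  have hC : 0 < C := by positivity
  have hGC : G ⊆ C • K := fun z hz => by
    rw [mem_smul_set_iff_inv_smul_mem₀ hC.ne', ← hK.gauge_le_one,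
      gauge_smul_of_nonneg (inv_nonneg.2 hC.le), smul_eq_mul, inv_mul_le_iff₀ hC, mul_one]
    have h := (Real.le_norm_self _).trans (hM z hz)
    have := le_max_left M 0
    linarith
  refine ⟨C, hC.le, fun t ht => ?_⟩
  set V1 := mixedVol K G
  have hV1 : 0 ≤ V1 := integral_nonneg fun x => supportVal_nonneg hG.compact hG.zero_mem _
  have key : ∀ ε : ℝ, 0 < ε → (volume (K + t • G)).toReal ≤ (volume K).toReal
      + ((m : ℝ) + 1) * (t * (1 + ε)) * (1 + t * (1 + ε) * ((1 + ε) * C)) ^ m * ((1 + ε) * V1) := by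
    intro ε hε
    obtain ⟨ι, hι, v, hv, hGv⟩ := hz ε hε
    set s := t * (1 + ε)
    have hs : 0 < s := by positivity
    set Z := P227.Zono.zonotope v
    have hZG : Z ⊆ ((1 + ε) * C) • K := by
      intro z hz
      rw [← smul_smul]
      exact smul_set_mono hGC (mem_smul_of_dot_le hG.compact hG.convex hG.nonempty fun u =>
        (dot_le_sum_of_mem_zonotope hz u).trans (hv u))
    have hsub : K + t • G ⊆ K + P227.Zono.zonotope (fun i => s • v i) := by
      rw [P227.Zono.zonotope_smul hs.le]
      refine Set.add_subset_add_left ?_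
      rw [show s • Z = t • (1 + ε) • Z by rw [smul_smul]]
      exact smul_set_mono hGv
    have hcz := P227.Zono.zonotope_compact (fun i => s • v i)
    have hcvz := P227.Zono.zonotope_convex (fun i => s • v i)
    have h1 := (P227.Zono.sum_area_le (v := fun i => s • v i) hK.compact hK.convex).2
    have h2 : ∀ i, P227.Zono.area (s • v i) (K + P227.Zono.zonotope fun i => s • v i)
        ≤ s * ((1 + s * ((1 + ε) * C)) ^ m * gain K (v i)) := by
      intro i
      rw [P227.Zono.area_smul (hK.compact.add hcz) (hK.convex.add hcvz) hs.le]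
      refine mul_le_mul_of_nonneg_left ?_ hs.le
      rcases eq_or_ne (v i) 0 with hi | hi
      · simp [hi, P227.Zono.area_zero, gain_zero]
      rw [← area_eq_gain hK, ← P227.Zono.area_dilate hK.compact hK.convex (by positivity)]
      refine P227.Zono.area_mono hi (hK.compact.add hcz) (hK.convex.add hcvz) (hK.compact.smul _)
        (hK.convex.smul _) ?_
      rw [P227.Zono.zonotope_smul hs.le, hK.convex.add_smul zero_le_one (by positivity), one_smul,
        show (s * ((1 + ε) * C)) • K = s • ((1 + ε) * C) • K from (smul_smul _ _ _).symm]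
      exact Set.add_subset_add_left (smul_set_mono hZG)
    have hint : ∀ i, IntegrableOn (fun x => |P227.Zono.normalAt K x ⬝ᵥ v i|) K := fun i =>
      hK.integrableOn_comp (φ := fun z => |z ⬝ᵥ v i|) (by
        simp only [dotProduct_comm _ (v i)]; exact (continuous_dot (v i)).abs)
    have h3 : 2 * ∑ i, gain K (v i) ≤ ((m : ℝ) + 1) * ((1 + ε) * V1) := by
      simp only [hK.gain_eq]
      rw [← Finset.mul_sum, ← integral_finsetSum _ fun i _ => hint i, ← mul_assoc,
        show 2 * (((m : ℝ) + 1) / 2) = (m : ℝ) + 1 by ring]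
      refine mul_le_mul_of_nonneg_left ?_ (by positivity)
      simp only [V1, mixedVol, ← integral_const_mul]
      exact integral_mono (integrable_finsetSum _ fun i _ => hint i)
        ((hK.integrableOn_comp (continuous_supportVal hG.compact)).const_mul _) fun x => hv _
    refine (ENNReal.toReal_mono (hK.compact.add hcz).measure_lt_top.ne (measure_mono hsub)).trans
      (h1.trans (add_le_add le_rfl ?_))
    calc 2 * ∑ i, P227.Zono.area (s • v i) (K + P227.Zono.zonotope fun i => s • v i)
        ≤ 2 * ∑ i, s * ((1 + s * ((1 + ε) * C)) ^ m * gain K (v i)) :=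
          mul_le_mul_of_nonneg_left (Finset.sum_le_sum fun i _ => h2 i) two_pos.le
      _ = s * (1 + s * ((1 + ε) * C)) ^ m * (2 * ∑ i, gain K (v i)) := by
          rw [← Finset.mul_sum, ← Finset.mul_sum]; ring
      _ ≤ s * (1 + s * ((1 + ε) * C)) ^ m * (((m : ℝ) + 1) * ((1 + ε) * V1)) :=
          mul_le_mul_of_nonneg_left h3 (by positivity)
      _ = _ := by simp only [s]; ring
  refine ge_of_tendsto (x := 𝓝[>] (0 : ℝ)) ((Continuous.tendsto' (f := fun ε : ℝ =>
    (volume K).toReal
      + ((m : ℝ) + 1) * (t * (1 + ε)) * (1 + t * (1 + ε) * ((1 + ε) * C)) ^ m * ((1 + ε) * V1))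
    (by fun_prop) 0 _ (by simp)).mono_left nhdsWithin_le_nhds) ?_
  filter_upwards [self_mem_nhdsWithin] with ε hε
  exact key ε hε

/-- Reading off the derivative at zero. -/
theorem slope_le {x y V C : ℝ} (hx : 0 < x) (hy : -x ≤ y)
    (h : ∀ t : ℝ, 0 < t → t < 1 →
      (x + t * y) ^ (m + 1) ≤ x ^ (m + 1) + ((m : ℝ) + 1) * t * (1 + t * C) ^ m * V) :
    x ^ m * y ≤ V := by
  refine ge_of_tendsto (x := 𝓝[>] (0 : ℝ)) ((Continuous.tendsto'
    (f := fun t : ℝ => (1 + t * C) ^ m * V) (by fun_prop) 0 V (by simp)).mono_left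
    nhdsWithin_le_nhds) ?_
  filter_upwards [self_mem_nhdsWithin, mem_nhdsWithin_of_mem_nhds (Iio_mem_nhds zero_lt_one)]
    with t ht ht1
  simp only [mem_Ioi, mem_Iio] at ht ht1
  have hyx : -1 ≤ y / x := by rw [le_div_iff₀ hx]; linarith
  have hb := one_add_mul_le_pow (show (-2 : ℝ) ≤ t * (y / x) by nlinarith) (m + 1)
  push_cast at hb
  have h2 : x ^ (m + 1) * (1 + ((m : ℝ) + 1) * (t * (y / x))) ≤ (x + t * y) ^ (m + 1) := by
    refine (mul_le_mul_of_nonneg_left hb (by positivity)).trans (le_of_eq ?_)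
    rw [← mul_pow]
    congr 1
    field_simp
  have e : x ^ (m + 1) * (1 + ((m : ℝ) + 1) * (t * (y / x)))
      = x ^ (m + 1) + ((m : ℝ) + 1) * t * (x ^ m * y) := by
    rw [pow_succ]; field_simp
  have h3 := (e ▸ h2).trans (h t ht ht1)
  refine le_of_mul_le_mul_left ?_ (show 0 < ((m : ℝ) + 1) * t by positivity)
  linarith

/-- Minkowski's first inequality against a zonoid. -/
theorem minkowski (hK : Cvx K) (hG : Cvx G) (hz : Zd G) :
    rad K ^ m * rad G ≤ mixedVol K G := by
  obtain ⟨C, -, h⟩ := volume_add_le hK hG hz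
  refine slope_le (C := C) (rad_pos hK) (by linarith [rad_pos hK, rad_nonneg G]) fun t ht _ => ?_
  rw [rad_pow K]
  refine le_trans ?_ (h t ht)
  rw [← rad_pow (K + t • G), ← rad_smul G ht.le]
  refine pow_le_pow_left₀ (add_nonneg (rad_nonneg _) (rad_nonneg _)) ?_ _
  exact rad_add_le hK.compact (hG.compact.smul t) (rad_pos hK)
    (by rw [rad_smul G ht.le]; exact mul_pos ht (rad_pos hG))

/-- In the case of equality the radii add up. -/
theorem rad_add_of_mixedVol_eq (hK : Cvx K) (hG : Cvx G) (hz : Zd G)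
    (he : mixedVol K G ≤ rad K ^ m * rad G) : rad (K + G) = rad K + rad G := by
  refine le_antisymm ?_ (rad_add_le hK.compact hG.compact (rad_pos hK) (rad_pos hG))
  obtain ⟨C, -, h⟩ := volume_add_le hK hG hz
  have hpos : 0 < rad (K + G) := lt_of_lt_of_le (add_pos (rad_pos hK) (rad_pos hG))
    (rad_add_le hK.compact hG.compact (rad_pos hK) (rad_pos hG))
  have key : rad K ^ m * (rad (K + G) - rad K) ≤ mixedVol K G := by
    refine slope_le (C := C) (rad_pos hK) (by linarith) fun t ht ht1 => ?_
    rw [rad_pow K]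
    refine le_trans ?_ (h t ht)
    have e : K + t • G = (1 - t) • K + t • (K + G) := by
      rw [smul_add, ← add_assoc, ← hK.convex.add_smul (by linarith) ht.le, sub_add_cancel, one_smul]
    rw [← rad_pow (K + t • G), e]
    have h1 : 0 < 1 - t := by linarith
    refine pow_le_pow_left₀ (by nlinarith [rad_pos hK, mul_pos ht hpos]) ?_ _
    refine le_trans (le_of_eq ?_) (rad_add_le (hK.compact.smul _)
      ((hK.compact.add hG.compact).smul _)
      (by rw [rad_smul K h1.le]; exact mul_pos h1 (rad_pos hK))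
      (by rw [rad_smul _ ht.le]; exact mul_pos ht hpos))
    rw [rad_smul K h1.le, rad_smul _ ht.le]
    ring
  have := le_of_mul_le_mul_left (key.trans he) (pow_pos (rad_pos hK) m)
  linarith

/-- The mixed volume against a projection body is symmetric in the two bodies. -/
theorem mixedVol_gainBody_comm (hK : Cvx K) (hL : Cvx L) :
    mixedVol K (gainBody L) = mixedVol L (gainBody K) := by
  simp only [mixedVol, hK.supportVal_gainBody, hL.supportVal_gainBody, hK.gain_eq, hL.gain_eq,
    integral_const_mul]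
  congr 1
  have : IsFiniteMeasure (volume.restrict K) := isFiniteMeasure_restrict.2 hK.compact.measure_lt_top.ne
  have : IsFiniteMeasure (volume.restrict L) := isFiniteMeasure_restrict.2 hL.compact.measure_lt_top.ne
  rw [integral_integral_swap]
  · simp only [dotProduct_comm]
  · obtain ⟨C, hC0, hC⟩ := hK.exists_normal_bound
    obtain ⟨D, hD0, hD⟩ := hL.exists_normal_bound
    refine Integrable.of_bound ?_ (((m : ℝ) + 1) * (D * C)) (Eventually.of_forall ?_)
    · refine Measurable.aestronglyMeasurable (Measurable.abs (Finset.measurable_sum _ fun i _ => ?_))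
      exact (((measurable_pi_apply i).comp (P227.Zono.measurable_normalAt L)).comp measurable_snd).mul
        (((measurable_pi_apply i).comp (P227.Zono.measurable_normalAt K)).comp measurable_fst)
    · rintro ⟨x, y⟩
      rw [Real.norm_eq_abs, show uncurry (fun x y => |P227.Zono.normalAt L y ⬝ᵥ
        P227.Zono.normalAt K x|) (x, y) = |P227.Zono.normalAt L y ⬝ᵥ P227.Zono.normalAt K x| from rfl,
        abs_abs]
      refine (Finset.abs_sum_le_sum_abs _ _).trans ?_
      calc ∑ i, |P227.Zono.normalAt L y i * P227.Zono.normalAt K x i|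
          ≤ ∑ _i : Fin (m + 1), D * C := Finset.sum_le_sum fun i _ => by
            rw [abs_mul]
            exact mul_le_mul ((norm_le_pi_norm _ i).trans (hD y)) ((norm_le_pi_norm _ i).trans (hC x))
              (abs_nonneg _) hD0
        _ = ((m : ℝ) + 1) * (D * C) := by simp [mul_comm]

theorem mixedVol_second (hK : Cvx K) :
    mixedVol K (gainBody (gainBody K)) = (volume (gainBody K)).toReal := by
  rw [mixedVol_gainBody_comm hK hK.cvx_gainBody, mixedVol_self hK.cvx_gainBody]

/-- The normalised volume of the projection body. -/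
noncomputable def ratio (K : Set (Pt (m + 1))) : ℝ :=
  (volume (gainBody K)).toReal / (volume K).toReal ^ m

theorem ratio_gainBody_le (hK : Cvx K) : ratio (gainBody K) ≤ ratio K := by
  have hG := hK.cvx_gainBody
  have h := minkowski hK hG.cvx_gainBody hG.zd_gainBody
  rw [mixedVol_second hK] at h
  have h1 := pow_le_pow_left₀ (mul_nonneg (pow_nonneg (rad_nonneg _) _) (rad_nonneg _)) h (m + 1)
  rw [mul_pow, rad_pow, ← pow_mul, mul_comm m (m + 1), pow_mul, rad_pow, pow_succ] at h1
  rw [ratio, ratio, div_le_div_iff₀ (pow_pos hG.volume_pos m) (pow_pos hK.volume_pos m)]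
  linarith

/-- If applying the projection body keeps the ratio, the radii of `K` and `Π Π K` add up. -/
theorem rad_add_of_ratio_eq (hK : Cvx K) (h : ratio K ≤ ratio (gainBody K)) :
    rad (K + gainBody (gainBody K)) = rad K + rad (gainBody (gainBody K)) := by
  have hG := hK.cvx_gainBody
  refine rad_add_of_mixedVol_eq hK hG.cvx_gainBody hG.zd_gainBody ?_
  rw [mixedVol_second hK]
  rw [ratio, ratio, div_le_div_iff₀ (pow_pos hK.volume_pos m) (pow_pos hG.volume_pos m)] at h
  refine le_of_pow_le_pow_left₀ (Nat.succ_ne_zero m)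
    (mul_nonneg (pow_nonneg (rad_nonneg _) _) (rad_nonneg _)) ?_
  rw [mul_pow, rad_pow, ← pow_mul (rad K), mul_comm m (m + 1), pow_mul, rad_pow, pow_succ]
  linarith

end Vale.Agent.P237.Full
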